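import Vale.Agent.P284Z.Z.Skoda

/-!
# P284Z, block Z: local integrability
-/

set_option linter.all false

open scoped Topology ENNReal
open Filter Set Metric MeasureTheory

noncomputable section

namespace Vale.Agent.P284Z.Z

variable {W W' : Type} [NormedAddCommGroup W] [NormedSpace ℂ W] [MeasurableSpace W] [BorelSpace W]
  [NormedAddCommGroup W'] [NormedSpace ℂ W'] [MeasurableSpace W'] [BorelSpace W']
  {μ : Measure W} {μ' : Measure W'} {g g' : W → ℝ≥0∞} {z : W} {P Q : W → ℝ} {s : ℝ} {U : Set W}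

/-- `g` is integrable near `z` -/
def LF (μ : Measure W) (g : W → ℝ≥0∞) (z : W) : Prop := ∃ U ∈ 𝓝 z, ∫⁻ y in U, g y ∂μ < ⊤

/-- `P ^ (-s)` is integrable near `z` -/
def LI (μ : Measure W) (P : W → ℝ) (s : ℝ) (z : W) : Prop :=
  LF μ (fun y => ENNReal.ofReal (P y) ^ (-s)) z

omit [NormedSpace ℂ W] [BorelSpace W] in
theorem LF.ev (h : LF μ g z) : ∀ᶠ y in 𝓝 z, LF μ g y := by
  obtain ⟨U, hU, h⟩ := h
  exact (eventually_mem_nhds_iff.2 hU).mono fun y hy => ⟨U, hy, h⟩

omit [NormedSpace ℂ W] in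
theorem LF.mono (h : LF μ g z) {c : ℝ≥0∞} (hc : c ≠ ⊤) (h' : ∀ᶠ y in 𝓝 z, g' y ≤ c * g y) :
    LF μ g' z := by
  obtain ⟨U, hU, h⟩ := h
  obtain ⟨O, h1, h2, h3⟩ := _root_.mem_nhds_iff.1 (inter_mem hU h')
  refine ⟨O, h2.mem_nhds h3, (setLIntegral_mono' h2.measurableSet fun y hy => (h1 hy).2).trans_lt ?_⟩
  rw [lintegral_const_mul' _ _ hc]
  exact ENNReal.mul_lt_top hc.lt_top ((lintegral_mono_set fun y hy => (h1 hy).1).trans_lt h)

theorem rpow_anti {x y : ℝ} (h : x ≤ y) (hs : 0 ≤ s) :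
    ENNReal.ofReal y ^ (-s) ≤ ENNReal.ofReal x ^ (-s) := by
  rw [ENNReal.rpow_neg, ENNReal.rpow_neg]
  exact ENNReal.inv_le_inv.2 (ENNReal.rpow_le_rpow (ENNReal.ofReal_le_ofReal h) hs)

omit [NormedSpace ℂ W] in
theorem LI.of_le (h : LI μ P s z) (hs : 0 ≤ s) {κ : ℝ} (hκ : 0 < κ)
    (h' : ∀ᶠ y in 𝓝 z, κ * P y ≤ Q y) : LI μ Q s z := by
  refine LF.mono h (c := ENNReal.ofReal κ ^ (-s)) ?_ (h'.mono fun y hy => ?_)
  · rw [ENNReal.ofReal_rpow_of_pos hκ]
    exact ENNReal.ofReal_ne_top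
  · rw [← ENNReal.mul_rpow_of_ne_top ENNReal.ofReal_ne_top ENNReal.ofReal_ne_top,
      ← ENNReal.ofReal_mul hκ.le]
    exact rpow_anti hy hs

omit [NormedSpace ℂ W] in
/-- a continuous positive factor does not matter -/
theorem li_mul_exp (hs : 0 ≤ s) {u : W → ℝ} (hu : ContinuousAt u z) (h0 : ∀ y, 0 ≤ P y) :
    LI μ (fun y => P y * Real.exp (u y)) s z ↔ LI μ P s z := by
  refine ⟨fun h => h.of_le hs (Real.exp_pos (-(u z + 1))) ?_,
    fun h => h.of_le hs (Real.exp_pos (u z - 1)) ?_⟩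
  · filter_upwards [hu.eventually_le_const (lt_add_one _)] with y hy
    rw [mul_left_comm, ← Real.exp_add]
    exact mul_le_of_le_one_right (h0 y) (Real.exp_le_one_iff.2 (by linarith))
  · filter_upwards [hu.eventually_const_le (sub_one_lt _)] with y hy
    rw [mul_comm]
    exact mul_le_mul_of_nonneg_left (Real.exp_le_exp.2 hy) (h0 y)

variable [FiniteDimensional ℂ W] [μ.IsAddHaarMeasure]

theorem LF.haar {ν : Measure W} [ν.IsAddHaarMeasure] (h : LF μ g z) : LF ν g z := by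
  haveI : ProperSpace W := proper
  obtain ⟨U, hU, h⟩ := h
  refine ⟨U, hU, ?_⟩
  rw [Measure.isAddLeftInvariant_eq_smul ν μ, Measure.restrict_smul, lintegral_smul_measure]
  exact ENNReal.mul_lt_top ENNReal.coe_lt_top h

/-- change of coordinates -/
theorem LF.map {τ σ : W → W} (hτ : AnalyticAt ℂ τ z) (hσ : ∀ᶠ y in 𝓝 z, σ (τ y) = y)
    (hm : map τ (𝓝 z) = 𝓝 (τ z)) (h : LF μ (fun y => g (τ y)) z) : LF μ g (τ z) := by
  have h1 : ContDiffAt ℝ 1 τ z := hτ.contDiffAt.restrict_scalars ℝ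
  have h2 : ContinuousAt (fun y => |(fderiv ℝ τ y).det|) z :=
    (ContinuousLinearMap.continuous_det.continuousAt.comp (h1.continuousAt_fderiv one_ne_zero)).abs
  obtain ⟨U, hU, h⟩ := h.mono (g' := fun y => ENNReal.ofReal |(fderiv ℝ τ y).det| * g (τ y))
    ENNReal.ofReal_ne_top ((h2.eventually_le_const (lt_add_one _)).mono fun y hy =>
      mul_le_mul_left (ENNReal.ofReal_le_ofReal hy) _)
  obtain ⟨O, h3, h4, h5⟩ := _root_.mem_nhds_iff.1 (inter_mem hU (hσ.and (h1.eventually (by simp))))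
  refine ⟨τ '' O, hm ▸ image_mem_map (h4.mem_nhds h5), ?_⟩
  rw [lintegral_image_eq_lintegral_abs_det_fderiv_mul μ h4.measurableSet
    (fun y hy => ((h3 hy).2.2.differentiableAt one_ne_zero).hasFDerivAt.hasFDerivWithinAt)
    fun y hy y' hy' e => by rw [← (h3 hy).2.1, e, (h3 hy').2.1]]
  exact (lintegral_mono_set fun y hy => (h3 hy).1).trans_lt h

theorem lf_equiv [μ'.IsAddHaarMeasure] (c : W) (e : W' ≃L[ℂ] W) {x : W'} :
    LF μ' (fun x => g (c + e x)) x ↔ LF μ g (c + e x) := by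
  let T : W' ≃ₜ W := e.toHomeomorph.trans (Homeomorph.addLeft c)
  have h1 : MeasurePreserving T μ' (μ'.map e) :=
    (measurePreserving_add_left (μ'.map e) c).comp ⟨e.continuous.measurable, rfl⟩
  have h2 := fun U => h1.setLIntegral_comp_preimage_emb T.measurableEmbedding g U
  refine ⟨fun ⟨U, hU, h⟩ => LF.haar (μ := μ'.map e) ⟨T '' U, T.isOpenMap.image_mem_nhds hU, ?_⟩,
    fun h => ?_⟩
  · rw [← h2, preimage_image_eq _ T.injective]
    exact h
  · obtain ⟨U, hU, h⟩ := h.haar (ν := μ'.map e)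
    exact ⟨T ⁻¹' U, T.continuous.continuousAt.preimage_mem_nhds hU, (h2 U).trans_lt h⟩

/-- integrability bounds the Lelong number -/
theorem LI.small (h : LI μ P s z) (hs : 0 < s) :
    SmallAt P ((2 * Module.finrank ℂ W : ℕ) / s) z := by
  haveI : ProperSpace W := proper
  rw [← finrank_real_of_complex]
  obtain ⟨U, hU, h⟩ := h
  obtain ⟨δ, hδ, hU⟩ := nhds_basis_closedBall.mem_iff.1 hU
  have hv := (measure_closedBall_pos μ (0 : W) one_pos).ne'
  obtain ⟨t, ht, h⟩ : ∃ t > (0 : ℝ), ∫⁻ y in U, ENNReal.ofReal (P y) ^ (-s) ∂μ <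
      ENNReal.ofReal t * μ (closedBall 0 1) := by
    obtain ⟨k, hk⟩ := ENNReal.exists_nat_mul_gt hv h.ne
    refine ⟨k + 1, by positivity, hk.trans_le (mul_le_mul_left ?_ _)⟩
    rw [← ENNReal.ofReal_natCast]
    exact ENNReal.ofReal_le_ofReal (by linarith)
  refine ⟨t ^ (-s⁻¹), by positivity, δ, hδ, fun r hr => ?_⟩
  by_contra H
  push Not at H
  have hr0 := hr.1
  refine h.not_ge (le_trans ?_ (lintegral_mono_set
    ((closedBall_subset_closedBall hr.2).trans hU)))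
  refine le_trans ?_ (setLIntegral_mono' measurableSet_closedBall fun y hy =>
    rpow_anti (H y hy).le hs.le)
  rw [setLIntegral_const, Measure.addHaar_closedBall' μ z hr0.le, ← mul_assoc,
    ENNReal.ofReal_rpow_of_pos (by positivity), ← ENNReal.ofReal_mul (by positivity),
    Real.mul_rpow (by positivity) (by positivity), ← Real.rpow_mul ht.le, ← Real.rpow_mul hr0.le,
    neg_mul_neg, inv_mul_cancel₀ hs.ne', Real.rpow_one, mul_neg, div_mul_cancel₀ _ hs.ne',
    Real.rpow_neg hr0.le, Real.rpow_natCast, mul_assoc, inv_mul_cancel₀ (by positivity), mul_one]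

omit [NormedSpace ℂ W] [MeasurableSpace W] [BorelSpace W] [FiniteDimensional ℂ W] in
theorem not_small {ν t K : ℝ} (h : SmallAt P ν z) (hν : ν < t) (ht : 0 ≤ t)
    (h' : ∀ᶠ y in 𝓝 z, P y ≤ K * ‖y - z‖ ^ t) : False := by
  obtain ⟨κ, hκ, δ, hδ, h⟩ := h
  obtain ⟨ε, hε, h'⟩ := nhds_basis_closedBall.eventually_iff.1 h'
  have h1 : Tendsto (fun r : ℝ => |K| * r ^ (t - ν)) (𝓝[>] 0) (𝓝 0) := by
    have := ((Real.continuousAt_rpow_const 0 (t - ν) (Or.inr (by linarith))).tendsto.const_mul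
      |K|).mono_left (nhdsWithin_le_nhds (s := Ioi 0))
    rwa [Real.zero_rpow (by linarith), mul_zero] at this
  obtain ⟨r, h2, h3⟩ := ((h1.eventually_lt_const hκ).and (Ioc_mem_nhdsGT (lt_min hδ hε))).exists
  obtain ⟨y, hy, h4⟩ := h r ⟨h3.1, h3.2.trans (min_le_left _ _)⟩
  have h5 := h' (closedBall_subset_closedBall (h3.2.trans (min_le_right _ _)) hy)
  have h6 : K * ‖y - z‖ ^ t ≤ |K| * r ^ t := mul_le_mul (le_abs_self K)
    (Real.rpow_le_rpow (norm_nonneg _) (mem_closedBall_iff_norm.1 hy) ht) (by positivity)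
    (abs_nonneg K)
  have h7 := mul_lt_mul_of_pos_right h2 (Real.rpow_pos_of_pos h3.1 ν)
  rw [mul_assoc, ← Real.rpow_add h3.1, sub_add_cancel] at h7
  linarith

theorem LI.not_le (h : LI μ P s z) (hs : 0 < s) {t K : ℝ}
    (ht : (2 * Module.finrank ℂ W : ℕ) < s * t) (h' : ∀ᶠ y in 𝓝 z, P y ≤ K * ‖y - z‖ ^ t) : False :=
  have h1 : (2 * Module.finrank ℂ W : ℕ) / s < t := (div_lt_iff₀' hs).2 ht
  not_small (h.small hs) h1 (le_trans (by positivity) h1.le) h'

variable (μ) in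
theorem li_skoda : ∃ c > (0 : ℝ), ∀ (P : W → ℝ) (U : Set W) (a z : W) (R M s : ℝ), IsOpen U →
    LPsh P U → closedBall a R ⊆ U → 0 < M → 0 < s → (∀ y ∈ closedBall a R, P y ≤ M) →
    M * Real.exp (-(c / s)) ≤ P a → ‖z - a‖ < R / 8 → LI μ P s z := by
  haveI : ProperSpace W := proper
  obtain ⟨c, hc, C, hC, h⟩ := skoda μ
  refine ⟨c, hc, fun P U a z R M s hU hP hB hM hs h1 h2 hz => ?_⟩
  have h3 := h P U a R M (c / s) hU hP hB (by linarith [norm_nonneg (z - a)]) hM (div_pos hc hs)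
    h1 h2
  rw [div_div_cancel₀ hc.ne'] at h3
  exact LI.of_le (P := fun y => P y / M) ⟨_, mem_of_superset (isOpen_ball.mem_nhds
    (mem_ball_iff_norm.2 hz)) ball_subset_closedBall, h3.trans_lt (ENNReal.mul_lt_top hC
      measure_closedBall_lt_top)⟩ hs.le hM (.of_forall fun y => (mul_div_cancel₀ _ hM.ne').le)

theorem li_of_pos (hU : IsOpen U) (hP : LPsh P U) (hz : z ∈ U) (h0 : 0 < P z) (hs : 0 < s) :
    LI μ P s z := by
  obtain ⟨c, hc, h⟩ := li_skoda μ
  obtain ⟨R, hR, hB⟩ := nhds_basis_closedBall.eventually_iff.1 (usc_ev hU (lpsh_usc hP) hz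
    (lt_mul_of_one_lt_right h0 (Real.one_lt_exp_iff.2 (div_pos hc hs))))
  refine h P U z z R _ s hU hP (fun y hy => (hB hy).1) (by positivity) hs
    (fun y hy => (hB hy).2.le) ?_ (by rw [sub_self, norm_zero]; positivity)
  rw [mul_assoc, ← Real.exp_add, add_neg_cancel, Real.exp_zero, mul_one]

variable (μ) in
/-- the uniform vanishing at the points where the function is not integrable -/
theorem li_decay : ∃ c > (0 : ℝ), ∀ (P : W → ℝ) (U : Set W) (z : W) (R M s : ℝ), IsOpen U →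
    LPsh P U → closedBall z R ⊆ U → 0 < R → 0 < M → 0 < s → (∀ y ∈ closedBall z R, P y ≤ M) →
    ¬ LI μ P s z → ∀ y ∈ closedBall z R, P y ≤ M * (10 * ‖y - z‖ / R) ^ (c / s) := by
  obtain ⟨c, hc, h⟩ := li_skoda μ
  have hl : 0 < Real.log 10 := Real.log_pos (by norm_num)
  refine ⟨c / Real.log 10, div_pos hc hl, fun P U z R M s hU hP hB hR hM hs h1 h2 y hy => ?_⟩
  have hβ : 0 < c / Real.log 10 / s := by positivity
  have e : Real.exp (-(c / s)) = (10⁻¹ : ℝ) ^ (c / Real.log 10 / s) := by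
    rw [Real.rpow_def_of_pos (by norm_num), Real.log_inv]
    congr 1
    field_simp
  have h3 : ∀ k : ℕ, ∀ y ∈ closedBall z (R * 10⁻¹ ^ k), P y ≤ M * Real.exp (-(c / s)) ^ k := by
    intro k
    induction k with
    | zero => simpa using h1
    | succ k ih =>
      intro y hy
      have hk : 0 < R * 10⁻¹ ^ k := by positivity
      have hk' : R * 10⁻¹ ^ k ≤ R := mul_le_of_le_one_right hR.le (pow_le_one₀ (by norm_num)
        (by norm_num))
      rw [pow_succ, ← mul_assoc, mem_closedBall] at hy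
      have hs' : closedBall y (R * 10⁻¹ ^ k * (9 / 10)) ⊆ closedBall z (R * 10⁻¹ ^ k) :=
        closedBall_subset_closedBall' (by linarith)
      rw [pow_succ, ← mul_assoc]
      refine le_of_not_ge fun H => h2 (h P U y z _ _ s hU hP
        (hs'.trans ((closedBall_subset_closedBall hk').trans hB)) (by positivity) hs
        (fun x hx => ih x (hs' hx)) H ?_)
      rw [← dist_eq_norm, dist_comm]
      linarith
  rcases eq_or_ne y z with rfl | hne
  · rw [sub_self, norm_zero, mul_zero, zero_div, Real.zero_rpow hβ.ne']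
    exact ge_of_tendsto' ((tendsto_pow_atTop_nhds_zero_of_lt_one (Real.exp_pos _).le
      (Real.exp_lt_one_iff.2 (neg_lt_zero.2 (div_pos hc hs)))).const_mul M) fun k =>
        h3 k y (mem_closedBall_self (by positivity))
  · have h0 : 0 < ‖y - z‖ := norm_pos_iff.2 (sub_ne_zero.2 hne)
    obtain ⟨k, h4, h5⟩ := exists_nat_pow_near_of_lt_one (div_pos h0 hR)
      ((div_le_one hR).2 (mem_closedBall_iff_norm.1 hy)) (y := 10⁻¹) (by norm_num) (by norm_num)
    refine (h3 k y (mem_closedBall_iff_norm.2 ((div_le_iff₀' hR).1 h5))).trans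
      (mul_le_mul_of_nonneg_left ?_ hM.le)
    rw [e, ← Real.rpow_natCast, ← Real.rpow_mul (by norm_num), mul_comm,
      Real.rpow_mul (by norm_num), Real.rpow_natCast]
    refine Real.rpow_le_rpow (by positivity) ?_ hβ.le
    rw [pow_succ] at h4
    rw [mul_div_assoc]
    linarith

end Vale.Agent.P284Z.Z
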