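import Vale.Agent.P284Z.Z.Reg
import Vale.Agent.P284Z.Z.Loc
import Vale.Agent.P284Z.F0.Levi
import Vale.Agent.P271.H884.Holo
import Vale.Agent.P271.H884.Poly

/-!
# P284Z, block Z: the theorem of Bombieri
-/

set_option linter.all false

open scoped Topology ENNReal ComplexConjugate
open Filter Set Metric MeasureTheory

noncomputable section

namespace Vale.Agent.P284Z.Z

open Vale.Agent.P272.K Vale.Agent.P271.Dom

variable {N : ℕ} {u P : Cm N → ℝ} {z q : Cm N}

theorem leviF_nonneg {U : Set (Cm N)} (h : Psh u U) (hz : U ∈ 𝓝 z) (hu : ContDiffAt ℝ 2 u z)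
    (β : Cm N) : 0 ≤ leviF u β z := by
  have e := congrArg Complex.re (cHess_quad hu (star β))
  rw [star_star, Complex.ofReal_re] at e
  refine (div_nonneg (h.levi_nonneg hz hu β) (by norm_num : (0 : ℝ) ≤ 4)).trans_eq
    (e.symm.trans (congrArg Complex.re (Finset.sum_congr rfl fun j _ => ?_)))
  rw [Matrix.mulVec, dotProduct, Finset.mul_sum]
  exact Finset.sum_congr rfl fun k _ => (mul_left_comm _ _ _).trans (mul_assoc _ _ _).symm

theorem ofReal_exp_neg (x t : ℝ) : ENNReal.ofReal (x * Real.exp (-t)) =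
    ENNReal.ofReal x * (ENNReal.ofReal (Real.exp t))⁻¹ := by
  rw [ENNReal.ofReal_mul' (Real.exp_pos _).le, Real.exp_neg,
    ENNReal.ofReal_inv_of_pos (Real.exp_pos _)]

/-- the estimate of Hörmander for the singular weight -/
theorem solve (hP : LPsh P (ball 0 4)) {s : Cm N → ℂ} (hs : ContDiff ℝ 2 s) {K : Set (Cm N)}
    (hK : MeasurableSet K) {c : ℝ} (h1 : ∀ z j, ‖dzb j s z‖ ≤ c) (h2 : ∀ z ∉ K, ∀ j, dzb j s z = 0)
    (h3 : ∫⁻ y in K, (ENNReal.ofReal (P y))⁻¹ < ⊤) : ∃ F : Cm N → ℂ,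
      DifferentiableOn ℂ F (ball 0 3) ∧ ∫⁻ z in ball 0 3, ENNReal.ofReal
        (‖F z - s z‖ ^ 2 * Real.exp (-∑ i, ‖z i‖ ^ 2)) * (ENNReal.ofReal (P z))⁻¹ < ⊤ := by
  obtain ⟨ψ, r1, r2, r3, r4, r5⟩ := reg hP
  obtain ⟨p, C, -, hp⟩ := exh_ball (z₀ := (0 : Cm N)) (r := 3) (by norm_num)
  have h0 : ∀ z : Cm N, 0 ≤ ∑ i, ‖z i‖ ^ 2 := fun z => by positivity
  have hl : ∀ m, ∀ z ∈ ball (0 : Cm N) 3, ∀ β, ∑ j, ‖β j‖ ^ 2 ≤
      leviF (fun z => ψ m z + ∑ i, ‖z i‖ ^ 2) β z := fun m z hz β => by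
    rw [leviF_add (r1 m).contDiffAt contDiff_sq.contDiffAt, leviF_sumSq]
    exact le_add_of_nonneg_left (leviF_nonneg (r2 m) (isOpen_ball.mem_nhds hz) (r1 m).contDiffAt β)
  have hc : ∀ m, ContDiff ℝ 2 fun z => ψ m z + ∑ i, ‖z i‖ ^ 2 := fun m => (r1 m).add contDiff_sq
  obtain ⟨F, hF, H⟩ := holo_dom_sing isOpen_ball hp (Φ := fun m z => ψ m z + ∑ i, ‖z i‖ ^ 2)
    (fun m => (hc m).contDiffOn) (fun m z hz => add_le_add_left (r3 m z hz) _)
    (fun m => ⟨-m, fun z hz => ((le_lg _ _).trans (r4 m z hz)).trans (le_add_of_nonneg_right (h0 z))⟩)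
    (fun m z hz β => (h0 β).trans (hl m z hz β)) hs.contDiffOn
    ⟨c, 0, fun z _ j => (h1 z j).trans_eq (by simp)⟩ (fun _ => K.indicator fun _ => c ^ 2 * N)
    (fun _ => indicator_nonneg fun _ _ => by positivity)
    (fun _ => (measurable_const.indicator hK).aemeasurable) (fun m z hz β => by
      by_cases hz' : z ∈ K
      · rw [indicator_of_mem hz']
        refine le_trans ?_ (mul_le_mul_of_nonneg_left (hl m z hz β) (by positivity))
        have h4 : ‖∑ j, dzb j s z * conj (β j)‖ ≤ c * ∑ j, ‖β j‖ := by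
          rw [Finset.mul_sum]
          refine norm_sum_le_of_le _ fun j _ => ?_
          rw [norm_mul, Complex.norm_conj]
          exact mul_le_mul_of_nonneg_right (h1 z j) (norm_nonneg _)
        refine (pow_le_pow_left₀ (norm_nonneg _) h4 2).trans ?_
        rw [mul_pow, mul_assoc]
        refine mul_le_mul_of_nonneg_left ?_ (sq_nonneg c)
        simpa using sq_sum_le_card_mul_sum_sq (s := Finset.univ) (f := fun j => ‖β j‖)
      · rw [indicator_of_notMem hz', zero_mul]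
        exact le_of_eq (pow_eq_zero_of_le one_le_two ((pow_one _).trans (norm_eq_zero.2
          (Finset.sum_eq_zero fun j _ => mul_eq_zero_of_left (h2 z hz' j) _)))))
    (A := (ENNReal.ofReal (c ^ 2 * N) * ∫⁻ y in K, (ENNReal.ofReal (P y))⁻¹).toReal)
    ENNReal.toReal_nonneg fun m => by
      rw [ENNReal.ofReal_toReal (ENNReal.mul_ne_top ENNReal.ofReal_ne_top h3.ne),
        ← lintegral_const_mul' _ _ ENNReal.ofReal_ne_top, ← lintegral_indicator hK]
      refine (setLIntegral_mono' measurableSet_ball fun z hz => ?_).trans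
        (setLIntegral_le_lintegral _ _)
      by_cases hz' : z ∈ K
      · rw [indicator_of_mem hz', indicator_of_mem hz', ofReal_exp_neg]
        refine mul_le_mul_right (ENNReal.inv_le_inv.2 (ENNReal.ofReal_le_ofReal ?_)) _
        exact (le_exp_lg m _).trans (Real.exp_le_exp.2 ((r4 m z hz).trans
          (le_add_of_nonneg_right (h0 z))))
      · simp [indicator_of_notMem hz']
  refine ⟨F, hF, (fatou (fun m => ?_) ((ae_restrict_mem measurableSet_ball).mono fun z hz => ?_)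
    (.of_forall H)).trans_lt ENNReal.ofReal_lt_top⟩
  · exact ((((hF.continuousOn.sub hs.continuous.continuousOn).norm.pow 2).mul
      (hc m).continuous.neg.rexp.continuousOn).aemeasurable measurableSet_ball).ennreal_ofReal
  · simp only [neg_add_rev, Real.exp_add, ← mul_assoc, ofReal_exp_neg _ (ψ _ z)]
    exact ENNReal.Tendsto.const_mul ((ENNReal.continuous_ofReal.tendsto _).comp (r5 z hz)).inv
      (Or.inr ENNReal.ofReal_ne_top)

theorem norm_dzb_le (s : Cm N → ℂ) (z : Cm N) (j : Fin N) : ‖dzb j s z‖ ≤ ‖fderiv ℝ s z‖ := by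
  have h1 := (fderiv ℝ s z).le_opNorm (Pi.single j 1)
  have h2 := (fderiv ℝ s z).le_opNorm (Pi.single j Complex.I)
  rw [Pi.norm_single] at h1 h2
  rw [dzb, norm_div, Complex.norm_two, div_le_iff₀ two_pos]
  refine (norm_add_le _ _).trans ?_
  rw [norm_mul, Complex.norm_I]
  simp only [norm_one, Complex.norm_I] at h1 h2
  linarith

theorem dzb_const {s : Cm N → ℂ} {c : ℂ} (h : s =ᶠ[𝓝 z] fun _ => c) (j : Fin N) :
    dzb j s z = 0 := by
  rw [dzb, h.fderiv_eq]
  simp

theorem bomb₀ (hP : LPsh P (ball 0 4)) (hq : q ∈ ball (0 : Cm N) 3) (h : LI volume P 1 q) :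
    ∃ F : Cm N → ℂ, DifferentiableOn ℂ F (ball 0 3) ∧ F q ≠ 0 ∧
      ∀ z ∈ ball (0 : Cm N) 3, F z ≠ 0 → LI volume P 1 z := by
  obtain ⟨U, hU, h⟩ := h
  obtain ⟨δ, hδ, hU⟩ := nhds_basis_closedBall.mem_iff.1 hU
  replace h := (lintegral_mono_set hU).trans_lt h
  let f : ContDiffBump q := ⟨δ / 2, δ, half_pos hδ, half_lt_self hδ⟩
  have hs : ContDiff ℝ 2 fun z => (f z : ℂ) := Complex.ofRealCLM.contDiff.comp f.contDiff
  obtain ⟨c, hc⟩ := (hs.continuous_fderiv two_ne_zero).bounded_above_of_compact_support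
    ((f.hasCompactSupport.comp_left (g := fun t : ℝ => (t : ℂ)) Complex.ofReal_zero).fderiv ℝ)
  have hP' : LPsh (fun y => P y * ‖y - q‖ ^ (2 * N + 1)) (ball 0 4) :=
    hP.mul ((lpsh_norm isOpen_ball (by fun_prop)).pow _)
  have h4 : ball (0 : Cm N) 3 ⊆ ball 0 4 := ball_subset_ball (by norm_num)
  obtain ⟨F, hF, H⟩ := solve hP' hs (K := closedBall q δ \ ball q (δ / 2))
    (measurableSet_closedBall.diff measurableSet_ball) (fun z j => (norm_dzb_le _ z j).trans (hc z))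
    (fun z hz j => by
      by_cases h1 : z ∈ ball q (δ / 2)
      · exact dzb_const (c := 1) ((f.eventuallyEq_one_of_mem_ball h1).mono fun y hy => by
          simp [hy]) j
      · refine dzb_const (c := 0) ((isClosed_closedBall.isOpen_compl.eventually_mem
          fun h2 => hz ⟨h2, h1⟩).mono fun y hy => ?_) j
        exact Complex.ofReal_eq_zero.2 (f.zero_of_le_dist (not_le.1 (mt mem_closedBall.2 hy)).le))
    (by
      refine (setLIntegral_mono' (measurableSet_closedBall.diff measurableSet_ball)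
        (g := fun y => (ENNReal.ofReal ((δ / 2) ^ (2 * N + 1)))⁻¹ * ENNReal.ofReal (P y) ^ (-1 : ℝ))
        fun y hy => ?_).trans_lt ?_
      · rw [ENNReal.rpow_neg_one, ← ENNReal.mul_inv (Or.inr ENNReal.ofReal_ne_top)
          (Or.inl ENNReal.ofReal_ne_top), ENNReal.ofReal_mul' (by positivity), mul_comm]
        refine ENNReal.inv_le_inv.2 (mul_le_mul_left (ENNReal.ofReal_le_ofReal ?_) _)
        exact pow_le_pow_left₀ (half_pos hδ).le (not_lt.1 (mt mem_ball_iff_norm.2 hy.2)) _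
      · have h1 : (ENNReal.ofReal ((δ / 2) ^ (2 * N + 1)))⁻¹ ≠ ⊤ :=
          ENNReal.inv_ne_top.2 (ENNReal.ofReal_pos.2 (by positivity)).ne'
        rw [lintegral_const_mul' _ _ h1]
        exact ENNReal.mul_lt_top h1.lt_top ((lintegral_mono_set diff_subset).trans_lt h))
  have key : ∀ z ∈ ball (0 : Cm N) 3, F z ≠ f z →
      LI volume (fun y => P y * ‖y - q‖ ^ (2 * N + 1)) 1 z := fun z hz h0 => by
    have h1 : ContinuousAt (fun z => ‖F z - f z‖ ^ 2 * Real.exp (-∑ i, ‖z i‖ ^ 2)) z :=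
      (((hF.continuousOn.continuousAt (isOpen_ball.mem_nhds hz)).sub
        hs.continuous.continuousAt).norm.pow 2).mul contDiff_sq.continuous.neg.rexp.continuousAt
    have h2 : 0 < ‖F z - f z‖ ^ 2 * Real.exp (-∑ i, ‖z i‖ ^ 2) :=
      mul_pos (pow_pos (norm_pos_iff.2 (sub_ne_zero.2 h0)) 2) (Real.exp_pos _)
    have h3 := (ENNReal.ofReal_pos.2 (half_pos h2)).ne'
    refine LF.mono ⟨_, isOpen_ball.mem_nhds hz, H⟩ (ENNReal.inv_ne_top.2 h3)
      ((h1.eventually_const_le (half_lt_self h2)).mono fun y hy => ?_)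
    rw [ENNReal.rpow_neg_one, ← mul_assoc]
    refine le_mul_of_one_le_left' ((ENNReal.inv_mul_cancel h3 ENNReal.ofReal_ne_top).symm.trans_le
      (mul_le_mul_right (ENNReal.ofReal_le_ofReal hy) _))
  refine ⟨F, hF, fun h0 => ?_, fun z hz h0 => ?_⟩
  · refine (key q hq (by
      rw [h0, f.one_of_mem_closedBall (mem_closedBall_self f.rIn_pos.le)]
      simp)).not_le one_pos (t := (2 * N + 1 : ℕ)) (K := P q + 1) (by simp) ?_
    filter_upwards [usc_ev isOpen_ball (lpsh_usc hP) (h4 hq) (lt_add_one _)] with y hy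
    rw [Real.rpow_natCast]
    exact mul_le_mul_of_nonneg_right hy.2.le (by positivity)
  · by_cases h1 : z ∈ ball q δ
    · exact ⟨_, mem_of_superset (isOpen_ball.mem_nhds h1) ball_subset_closedBall, h⟩
    · have h2 : 0 < (‖z - q‖ + 1) ^ (2 * N + 1) := by positivity
      refine (key z hz (by rwa [f.zero_of_le_dist (not_lt.1 h1), Complex.ofReal_zero])).of_le
        zero_le_one (inv_pos.2 h2) ?_
      have h3 : ContinuousAt (fun y => ‖y - q‖) z := by fun_prop
      filter_upwards [isOpen_ball.mem_nhds (h4 hz), h3.eventually_le_const (lt_add_one _)]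
        with y hy hy'
      rw [inv_mul_le_iff₀ h2, mul_comm]
      exact mul_le_mul_of_nonneg_right (pow_le_pow_left₀ (norm_nonneg _) hy' _) (hP.1 y hy)

/-- **Bombieri** on the affine image of a polydisc -/
theorem bomb {W : Type} [NormedAddCommGroup W] [NormedSpace ℂ W] [MeasurableSpace W] [BorelSpace W]
    [FiniteDimensional ℂ W] {μ : Measure W} [μ.IsAddHaarMeasure] (c : W) (e : Cm N ≃L[ℂ] W)
    {U V : Set W} (hU : ∀ x, c + e x ∈ U ↔ ‖x‖ < 4) (hV : ∀ x, c + e x ∈ V ↔ ‖x‖ < 3) {P : W → ℝ}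
    (hP : LPsh P U) {s : ℝ} (hs : 0 < s) {q : W} (hq : q ∈ V) (h : LI μ P s q) :
    ∃ F : W → ℂ, AnalyticOnNhd ℂ F V ∧ F q ≠ 0 ∧ ∀ z ∈ V, F z ≠ 0 → LI μ P s z := by
  have hP' : LPsh (fun x => P (c + e x)) (ball 0 4) :=
    lpsh_mono (lpsh_affine hP c (e : Cm N →L[ℂ] W)) fun x hx => (hU x).2 (mem_ball_zero_iff.1 hx)
  have e1 : ∀ z, c + e (e.symm (z - c)) = z := fun z => by simp
  have e2 : ∀ z ∈ V, e.symm (z - c) ∈ ball (0 : Cm N) 3 := fun z hz =>
    mem_ball_zero_iff.2 ((hV _).1 ((e1 z).symm ▸ hz))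
  have e3 : ∀ z ∈ V, LI volume (fun x => P (c + e x) ^ s) 1 (e.symm (z - c)) ↔ LI μ P s z := by
    intro z hz
    have e4 : ∀ᶠ x in 𝓝 (e.symm (z - c)), ENNReal.ofReal (P (c + e x) ^ s) ^ (-1 : ℝ) =
        ENNReal.ofReal (P (c + e x)) ^ (-s) := by
      filter_upwards [isOpen_ball.mem_nhds (ball_subset_ball (by norm_num : (3 : ℝ) ≤ 4) (e2 z hz))]
        with x hx
      rw [← ENNReal.ofReal_rpow_of_nonneg (hP'.1 x hx) hs.le, ← ENNReal.rpow_mul, mul_neg_one]
    refine Iff.trans ⟨fun h => h.mono ENNReal.one_ne_top (e4.mono fun x hx => ?_),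
      fun h => h.mono ENNReal.one_ne_top (e4.mono fun x hx => ?_)⟩
      ((lf_equiv (μ := μ) (μ' := volume) (g := fun y => ENNReal.ofReal (P y) ^ (-s)) c e).trans
        (by rw [e1]; rfl))
    · rw [one_mul, hx]
    · rw [one_mul, hx]
  obtain ⟨F, h1, h2, h3⟩ := bomb₀ (hP'.rpow hs.le) (e2 q hq) ((e3 q hq).2 h)
  exact ⟨fun z => F (e.symm (z - c)), fun z hz =>
    (P268.analyticOnNhd_of_differentiableOn isOpen_ball h1 _ (e2 z hz)).comp
      (f := fun z => e.symm (z - c)) ((e.symm.analyticAt _).comp (f := fun z => z - c)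
        (analyticAt_id.sub analyticAt_const)), h2,
    fun z hz h => (e3 z hz).1 (h3 _ (e2 z hz) h)⟩

end Vale.Agent.P284Z.Z
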