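import Mathlib
import Vale.Agent.P284Z.Defs

/-!
# P284Z, block Z: plurisubharmonic functions bounded below, the sub-mean inequality on balls
-/

set_option linter.all false

open scoped Topology ENNReal
open Filter Set Metric MeasureTheory

noncomputable section

namespace Vale.Agent.P284Z.Z

variable {W : Type} [NormedAddCommGroup W] [NormedSpace ℂ W] {u : W → ℝ} {U K : Set W}

/-- plurisubharmonic and bounded below on an open set -/
structure BP (u : W → ℝ) (U : Set W) : Prop where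
  opn : IsOpen U
  psh : Psh u U
  bdd : ∃ b, ∀ z ∈ U, b ≤ u z

theorem le_lg (T x : ℝ) : -T ≤ lg T x := by
  rw [lg, Real.le_log_iff_exp_le (lt_max_of_lt_right (Real.exp_pos _))]
  exact le_max_right _ _

theorem exp_lg (T x : ℝ) : Real.exp (lg T x) = max x (Real.exp (-T)) :=
  Real.exp_log (lt_max_of_lt_right (Real.exp_pos _))

theorem lg_le_iff {T x t : ℝ} : lg T x ≤ t ↔ x ≤ Real.exp t ∧ -T ≤ t := by
  rw [← Real.exp_le_exp, exp_lg, max_le_iff, Real.exp_le_exp]

theorem lg_lt_iff {T x t : ℝ} : lg T x < t ↔ x < Real.exp t ∧ -T < t := by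
  rw [← Real.exp_lt_exp, exp_lg, max_lt_iff, Real.exp_lt_exp]

theorem lg_anti {T T' : ℝ} (h : T ≤ T') (x : ℝ) : lg T' x ≤ lg T x :=
  lg_le_iff.2 ⟨exp_lg T x ▸ le_max_left _ _, (neg_le_neg h).trans (le_lg T x)⟩

theorem _root_.Vale.Agent.P284Z.LPsh.bp {P : W → ℝ} (h : LPsh P U) (hU : IsOpen U) (T : ℝ) :
    BP (fun z => lg T (P z)) U := ⟨hU, h.2 T, -T, fun _ _ => le_lg _ _⟩

theorem lpsh_usc {P : W → ℝ} (h : LPsh P U) : UpperSemicontinuousOn P U := fun z hz t ht => by
  have h0 : 0 < t := (h.1 z hz).trans_lt ht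
  filter_upwards [(h.2 (1 - Real.log t)).1 z hz (Real.log t)
    (lg_lt_iff.2 ⟨by rwa [Real.exp_log h0], by linarith⟩)] with y hy
  exact Real.exp_log h0 ▸ (lg_lt_iff.1 hy).1

theorem lpsh_mono {P : W → ℝ} (h : LPsh P U) {V : Set W} (hV : V ⊆ U) : LPsh P V :=
  ⟨fun z hz => h.1 z (hV hz), fun T => ⟨(h.2 T).1.mono hV, fun z w hw =>
    (h.2 T).2 z w fun ζ hζ => hV (hw ζ hζ)⟩⟩

theorem lpsh_affine {W' : Type} [NormedAddCommGroup W'] [NormedSpace ℂ W'] {P : W → ℝ}
    (h : LPsh P U) (c : W) (A : W' →L[ℂ] W) :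
    LPsh (fun x => P (c + A x)) ((fun x => c + A x) ⁻¹' U) :=
  ⟨fun z hz => h.1 _ hz, fun T => ⟨(h.2 T).1.comp (by fun_prop) fun _ hx => hx, fun z w hw => by
    have e : ∀ ζ : ℂ, c + A (z + ζ • w) = c + A z + ζ • A w := fun ζ => by
      rw [map_add, map_smul, add_assoc]
    simpa only [e] using (h.2 T).2 (c + A z) (A w) fun ζ hζ => e ζ ▸ hw ζ hζ⟩⟩

theorem BP.mono (h : BP u U) {V : Set W} (hV : IsOpen V) (hVU : V ⊆ U) : BP u V :=
  ⟨hV, ⟨h.psh.1.mono hVU, fun z w hw => h.psh.2 z w fun ζ hζ => hVU (hw ζ hζ)⟩,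
    h.bdd.imp fun _ hb z hz => hb z (hVU hz)⟩

theorem BP.bound (h : BP u U) (hK : IsCompact K) (hKU : K ⊆ U) : ∃ B, ∀ z ∈ K, |u z| ≤ B := by
  obtain ⟨b, hb⟩ := h.bdd
  obtain ⟨c, hc⟩ := (h.psh.1.mono hKU).bddAbove_of_isCompact hK
  exact ⟨max (-b) c, fun z hz => abs_le.2 ⟨by linarith [hb z (hKU hz), le_max_left (-b) c],
    (hc ⟨z, hz, rfl⟩).trans (le_max_right _ _)⟩⟩

theorem usc_ev (hU : IsOpen U) (h : UpperSemicontinuousOn u U) {z : W} (hz : z ∈ U) {t : ℝ}
    (ht : u z < t) : ∀ᶠ y in 𝓝 z, y ∈ U ∧ u y < t :=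
  (hU.eventually_mem hz).and (hU.nhdsWithin_eq hz ▸ h z hz t ht)

theorem disc_compact (z w : W) : IsCompact ((fun ζ : ℂ => z + ζ • w) '' closedBall 0 1) :=
  (isCompact_closedBall 0 1).image (by fun_prop)

theorem disc_sub {z w c : W} {r : ℝ} (h : ‖z - c‖ + ‖w‖ ≤ r) {ζ : ℂ} (hζ : ‖ζ‖ ≤ 1) :
    z + ζ • w ∈ closedBall c r := by
  rw [mem_closedBall_iff_norm, add_sub_right_comm]
  refine (norm_add_le _ _).trans (le_trans ?_ h)
  rw [norm_smul]
  nlinarith [norm_nonneg w]

section meas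
variable [MeasurableSpace W] [BorelSpace W]

theorem meas_ind (hU : IsOpen U) (h : UpperSemicontinuousOn u U) :
    Measurable (U.indicator u) := by
  refine measurable_of_Iio fun a => ?_
  have h1 : IsOpen {x | x ∈ U ∧ u x < a} :=
    isOpen_iff_mem_nhds.2 fun x hx => usc_ev hU h hx.1 hx.2
  have h2 : U.indicator u ⁻¹' Iio a = {x | x ∈ U ∧ u x < a} ∪ (Uᶜ ∩ {_x | (0 : ℝ) < a}) := by
    ext x
    by_cases hx : x ∈ U <;> simp [hx]
  rw [h2]
  exact h1.measurableSet.union (hU.measurableSet.compl.inter (MeasurableSet.const _))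

theorem usc_aemeas (hU : IsOpen U) (h : UpperSemicontinuousOn u U) (hK : MeasurableSet K)
    (hKU : K ⊆ U) (μ : Measure W) : AEMeasurable u (μ.restrict K) :=
  (meas_ind hU h).aemeasurable.congr
    ((ae_restrict_mem hK).mono fun _ hz => indicator_of_mem (hKU hz) u)

/-- a bounded measurable function that agrees with `u` on a compact set -/
theorem BP.cut (h : BP u U) (hK : IsCompact K) (hKU : K ⊆ U) :
    ∃ (v : W → ℝ) (B : ℝ), Measurable v ∧ (∀ z, |v z| ≤ B) ∧ (∀ z ∈ K, v z = u z) ∧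
      ∀ z ∉ K, v z = 0 := by
  obtain ⟨B, hB⟩ := h.bound hK hKU
  have e : ∀ z ∈ K, K.indicator (U.indicator u) z = u z := fun z hz => by
    rw [indicator_of_mem hz, indicator_of_mem (hKU hz)]
  refine ⟨_, max B 0, (meas_ind h.opn h.psh.1).indicator hK.measurableSet, fun z => ?_, e,
    fun z hz => indicator_of_notMem hz _⟩
  by_cases hz : z ∈ K
  · exact e z hz ▸ (hB z hz).trans (le_max_left _ _)
  · rw [indicator_of_notMem hz, abs_zero]
    exact le_max_right _ _

theorem circInt_bdd {g : ℂ → ℝ} (hg : Measurable g) {B : ℝ} (hB : ∀ z, |g z| ≤ B) :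
    CircleIntegrable g 0 1 :=
  (intervalIntegrable_const (c := B)).mono_fun'
    (hg.comp (continuous_circleMap 0 1).measurable).aestronglyMeasurable
    (Eventually.of_forall fun _ => hB _)

end meas

theorem BP.circInt (h : BP u U) {z w : W} (hw : ∀ ζ : ℂ, ‖ζ‖ ≤ 1 → z + ζ • w ∈ U) :
    CircleIntegrable (fun ζ : ℂ => u (z + ζ • w)) 0 1 := by
  borelize W
  obtain ⟨v, B, h1, h2, h3, -⟩ := h.cut (disc_compact z w)
    (by rintro _ ⟨ζ, hζ, rfl⟩; exact hw ζ (mem_closedBall_zero_iff.1 hζ))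
  have := circInt_bdd (g := fun ζ => v (z + ζ • w))
    (h1.comp (by fun_prop : Continuous fun ζ : ℂ => z + ζ • w).measurable) fun _ => h2 _
  have e : (fun θ => v (z + circleMap 0 1 θ • w)) = fun θ => u (z + circleMap 0 1 θ • w) :=
    funext fun θ => h3 _ ⟨_, by simp, rfl⟩
  exact (circleIntegrable_def _ _ _).2 (e ▸ (circleIntegrable_def _ _ _).1 this)

theorem BP.add {v : W → ℝ} (h : BP u U) (h' : BP v U) : BP (fun z => u z + v z) U :=
  ⟨h.opn, ⟨h.psh.1.add h'.psh.1, fun z w hw => by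
      rw [Real.circleAverage_fun_add (h.circInt hw) (h'.circInt hw)]
      exact add_le_add (h.psh.2 z w hw) (h'.psh.2 z w hw)⟩,
    h.bdd.elim fun b hb => h'.bdd.elim fun c hc =>
      ⟨b + c, fun z hz => add_le_add (hb z hz) (hc z hz)⟩⟩

theorem bp_const (hU : IsOpen U) (c : ℝ) : BP (fun _ => c) U :=
  ⟨hU, ⟨upperSemicontinuousOn_const, fun _ _ _ => (Real.circleAverage_const c 0 1).ge⟩,
    c, fun _ _ => le_rfl⟩

theorem BP.mul (h : BP u U) {β : ℝ} (hβ : 0 < β) : BP (fun z => β * u z) U :=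
  ⟨h.opn, ⟨fun z hz t ht => (h.psh.1 z hz (t / β) ((lt_div_iff₀' hβ).2 ht)).mono
      fun _ hy => (lt_div_iff₀' hβ).1 hy, fun z w hw =>
      (mul_le_mul_of_nonneg_left (h.psh.2 z w hw) hβ.le).trans
        (Real.circleAverage_fun_smul (a := β) (f := fun ζ : ℂ => u (z + ζ • w))).ge⟩,
    h.bdd.elim fun b hb => ⟨β * b, fun z hz => mul_le_mul_of_nonneg_left (hb z hz) hβ.le⟩⟩

variable [FiniteDimensional ℂ W] [MeasurableSpace W] [BorelSpace W] {μ : Measure W}
  [μ.IsAddHaarMeasure]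

omit [MeasurableSpace W] [BorelSpace W] in
theorem proper : ProperSpace W := FiniteDimensional.proper ℂ W

variable (μ) in
/-- multiplication by a complex number of norm one preserves the Haar measure -/
theorem rot {a : ℂ} (ha : ‖a‖ = 1) (g : W → ℝ) : ∫ w, g (a • w) ∂μ = ∫ w, g w ∂μ := by
  haveI : ProperSpace W := proper
  have h0 : a ≠ 0 := norm_ne_zero_iff.1 (ha ▸ one_ne_zero)
  let e : W ≃L[ℂ] W := ContinuousLinearEquiv.smulLeft (Units.mk0 a h0)
  have h1 := Measure.isAddLeftInvariant_eq_smul (μ.map e) μ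
  have h2 : μ.map e (ball 0 1) = μ (ball 0 1) := by
    rw [Measure.map_apply e.continuous.measurable measurableSet_ball]
    congr 1
    ext x
    show a • x ∈ ball 0 1 ↔ _
    rw [mem_ball_zero_iff, mem_ball_zero_iff, norm_smul, ha, one_mul]
  rw [h1, Measure.smul_apply, ENNReal.smul_def, smul_eq_mul] at h2
  have h3 := (ENNReal.mul_eq_right (measure_ball_pos μ 0 one_pos).ne' measure_ball_lt_top.ne).1 h2
  rw [ENNReal.coe_eq_one.1 h3, one_smul] at h1
  exact (MeasurePreserving.mk e.continuous.measurable h1).integral_comp'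
    (f := e.toHomeomorph.toMeasurableEquiv) g

theorem swap {v k : W → ℝ} (hv : Measurable v) {B : ℝ} (hB : ∀ z, |v z| ≤ B)
    (hk : Integrable k μ) {q : ℂ × W → W} (hq : Continuous q) :
    Real.circleAverage (fun ζ => ∫ w, k w * v (q (ζ, w)) ∂μ) 0 1 =
      ∫ w, k w * Real.circleAverage (fun ζ => v (q (ζ, w))) 0 1 ∂μ ∧
    Integrable (fun w => k w * Real.circleAverage (fun ζ => v (q (ζ, w))) 0 1) μ := by
  haveI : ProperSpace W := proper
  have hint : Integrable (fun p : ℝ × W => k p.2 * v (q (circleMap 0 1 p.1, p.2)))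
      ((volume.restrict (Ioc 0 (2 * Real.pi))).prod μ) :=
    (hk.comp_snd _).mul_bdd (c := B) (hv.comp (hq.comp
      (((continuous_circleMap 0 1).comp continuous_fst).prodMk
        continuous_snd)).measurable).aestronglyMeasurable (Eventually.of_forall fun _ => hB _)
  have e : ∀ w, k w * Real.circleAverage (fun ζ => v (q (ζ, w))) 0 1 = (2 * Real.pi)⁻¹ *
      ∫ θ in Ioc 0 (2 * Real.pi), k w * v (q (circleMap 0 1 θ, w)) := fun w => by
    rw [Real.circleAverage_def, intervalIntegral.integral_of_le Real.two_pi_pos.le,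
      integral_const_mul, smul_eq_mul, mul_left_comm]
  simp only [e]
  refine ⟨?_, hint.integral_prod_right.const_mul _⟩
  rw [Real.circleAverage_def, intervalIntegral.integral_of_le Real.two_pi_pos.le,
    integral_integral_swap hint, integral_const_mul, smul_eq_mul]

theorem BP.intOn (h : BP u U) (hK : IsCompact K) (hKU : K ⊆ U) : IntegrableOn u K μ := by
  obtain ⟨B, hB⟩ := h.bound hK hKU
  exact (integrableOn_const (C := B) hK.measure_lt_top.ne).mono'
    (usc_aemeas h.opn h.psh.1 hK.measurableSet hKU μ).aestronglyMeasurable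
    ((ae_restrict_mem hK.measurableSet).mono hB)

/-- the sub-mean inequality against a rotation invariant kernel -/
theorem BP.kernel (h : BP u U) {z : W} {r : ℝ} (hz : closedBall z r ⊆ U) {k : W → ℝ}
    (hk : Integrable k μ) (h0 : ∀ w, 0 ≤ k w) (h1 : ∀ w, r < ‖w‖ → k w = 0)
    (h2 : ∀ a : ℂ, ‖a‖ = 1 → ∀ w, k (a • w) = k w) :
    u z * ∫ w, k w ∂μ ≤ ∫ w, k w * u (z + w) ∂μ := by
  haveI : ProperSpace W := proper
  obtain ⟨v, B, m1, m2, m3, -⟩ := h.cut (isCompact_closedBall z r) hz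
  have hd : ∀ w, ‖w‖ ≤ r → ∀ ζ : ℂ, ‖ζ‖ ≤ 1 → z + ζ • w ∈ closedBall z r := fun w hw ζ hζ =>
    disc_sub (by simpa using hw) hζ
  have e : ∀ w, k w * u (z + w) = k w * v (z + w) := fun w => by
    rcases lt_or_ge r ‖w‖ with hw | hw
    · rw [h1 w hw, zero_mul, zero_mul]
    · rw [m3 _ (by simpa using hw)]
  obtain ⟨s1, s2⟩ := swap m1 m2 hk (q := fun p => z + p.1 • p.2) (by fun_prop)
  rw [Real.circleAverage_const_on_circle (a := ∫ w, k w * v (z + w) ∂μ) fun ζ hζ => by
    have hζ : ‖ζ‖ = 1 := by simpa using hζ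
    rw [← rot μ hζ fun w => k w * v (z + w)]
    simp only [h2 ζ hζ]] at s1
  simp only [e]
  rw [s1, mul_comm, ← integral_mul_const]
  refine integral_mono (hk.mul_const _) s2 fun w => ?_
  rcases lt_or_ge r ‖w‖ with hw | hw
  · simp only [h1 w hw, zero_mul, le_refl]
  · refine mul_le_mul_of_nonneg_left ((h.psh.2 z w fun ζ hζ => hz (hd w hw ζ hζ)).trans_eq
      (Real.circleAverage_congr_sphere fun ζ hζ => (m3 _ (hd w hw ζ ?_)).symm)) (h0 w)
    exact le_of_eq (by simpa using hζ)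

/-- the sub-mean inequality on balls -/
theorem BP.ball_mean (h : BP u U) {z : W} {r : ℝ} (hz : closedBall z r ⊆ U) :
    u z * μ.real (closedBall z r) ≤ ∫ y in closedBall z r, u y ∂μ := by
  haveI : ProperSpace W := proper
  have := h.kernel (μ := μ) hz (k := (closedBall 0 r).indicator 1)
    ((integrable_indicator_iff measurableSet_closedBall).2
      (integrableOn_const measure_closedBall_lt_top.ne))
    (fun w => indicator_nonneg (fun _ _ => zero_le_one) w)
    (fun w hw => indicator_of_notMem (by simpa using hw) _)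
    fun a ha w => by simp [indicator, norm_smul, ha]
  rw [integral_indicator_one measurableSet_closedBall] at this
  rw [measureReal_def, Measure.addHaar_closedBall_center, ← measureReal_def,
    ← integral_indicator measurableSet_closedBall, ← integral_add_left_eq_self _ z]
  refine this.trans_eq (integral_congr_ae (Eventually.of_forall fun w => ?_))
  simp [indicator]

/-- Chebyshev -/
theorem BP.cheb (h : BP u U) {z : W} {r M s : ℝ} (hz : closedBall z r ⊆ U)
    (hM : ∀ y ∈ closedBall z r, u y ≤ M) :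
    s * μ.real {y ∈ closedBall z r | u y ≤ M - s} ≤ (M - u z) * μ.real (closedBall z r) := by
  haveI : ProperSpace W := proper
  have hi := h.intOn (μ := μ) (isCompact_closedBall z r) hz
  have hc : IntegrableOn (fun _ => M) (closedBall z r) μ :=
    integrableOn_const measure_closedBall_lt_top.ne
  have h1 := mul_meas_ge_le_integral_of_nonneg (μ := μ.restrict (closedBall z r))
    (f := fun y => M - u y)
    ((ae_restrict_mem measurableSet_closedBall).mono fun y hy => sub_nonneg.2 (hM y hy))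
    (hc.sub hi) s
  rw [integral_sub hc hi, setIntegral_const, smul_eq_mul, measureReal_def,
    Measure.restrict_apply' measurableSet_closedBall, ← measureReal_def] at h1
  have e : {y ∈ closedBall z r | u y ≤ M - s} = {y | s ≤ M - u y} ∩ closedBall z r :=
    Set.ext fun y => and_comm.trans (and_congr_left' le_sub_comm)
  rw [e]
  linarith [h.ball_mean (μ := μ) hz]

end Vale.Agent.P284Z.Z
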