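import Vale.Agent.P284Z.Z.Bomb
import Vale.Agent.P284Z.F0.Cov
import Vale.Agent.P284Z.Spec

/-!
# P284Z, block Z: the non-integrability loci
-/

set_option linter.all false

open scoped Topology ENNReal
open Filter Set Metric MeasureTheory

noncomputable section

namespace Vale.Agent.P284Z.Z

open Vale.Agent.P272.K

variable {n : ℕ} {Γ E : Type} [Group Γ] [TopologicalSpace E] [MulAction Γ E] {C : Cov n Γ E}
  {G : E → E → ℝ} {s : ℝ} {γ γ' δ δ' : Γ} {a b a' b' : C.I} {q q' : Cm n × Cm n}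

instance haar₂ : (volume : Measure (Cm n × Cm n)).IsAddHaarMeasure :=
  Measure.prod.instIsAddHaarMeasure _ _

variable (C G) in
/-- a function of two points in charts -/
def ch2 (γ γ' : Γ) (a b : C.I) (q : Cm n × Cm n) : ℝ := G (C.pt γ a q.1) (C.pt γ' b q.2)

variable (C G s) in
/-- the locus where `G ^ (-s)` is not integrable -/
def NI : Set (E × E) := {p | ∃ γ γ' a b, ∃ q ∈ C.B 4 a ×ˢ C.B 4 b,
  p = (C.pt γ a q.1, C.pt γ' b q.2) ∧ ¬ LI volume (ch2 C G γ γ' a b) s q}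

theorem li_chart (hq : q ∈ C.B 4 a ×ˢ C.B 4 b) (hq' : q' ∈ C.B 4 a' ×ˢ C.B 4 b')
    (e₁ : C.pt γ a q.1 = C.pt δ a' q'.1) (e₂ : C.pt γ' b q.2 = C.pt δ' b' q'.2)
    (h : LI volume (ch2 C G γ γ' a b) s q) : LI volume (ch2 C G δ δ' a' b') s q' := by
  obtain ⟨o₁, t₁⟩ := C.Ov_of_eq hq.1 hq'.1 e₁
  obtain ⟨o₂, t₂⟩ := C.Ov_of_eq hq.2 hq'.2 e₂
  have ev : ∀ᶠ y : Cm n × Cm n in 𝓝 q, C.Ov (δ⁻¹ * γ) a a' y.1 ∧ C.Ov (δ'⁻¹ * γ') b b' y.2 :=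
    (continuous_fst.continuousAt.eventually (C.ev_Ov o₁)).and
      (continuous_snd.continuousAt.eventually (C.ev_Ov o₂))
  rw [show q' = (C.tr (δ⁻¹ * γ) a a' q.1, C.tr (δ'⁻¹ * γ') b b' q.2) from Prod.ext t₁.symm t₂.symm]
  refine LF.map (τ := fun y : Cm n × Cm n => (C.tr (δ⁻¹ * γ) a a' y.1, C.tr (δ'⁻¹ * γ') b b' y.2))
    (σ := fun y => (C.tr (δ⁻¹ * γ)⁻¹ a' a y.1, C.tr (δ'⁻¹ * γ')⁻¹ b' b y.2))
    (((C.an_tr o₁).comp analyticAt_fst).prod ((C.an_tr o₂).comp analyticAt_snd))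
    (ev.mono fun y hy => Prod.ext (C.tr_tr hy.1) (C.tr_tr hy.2)) ?_
    (h.mono ENNReal.one_ne_top (ev.mono fun y hy => ?_))
  · rw [nhds_prod_eq (x := C.tr _ a a' q.1), ← C.map_tr o₁, ← C.map_tr o₂, prod_map_map_eq,
      ← nhds_prod_eq]
  · rw [one_mul, ch2, ch2, C.pt_tr hy.1, C.pt_tr hy.2, mul_inv_cancel_left, mul_inv_cancel_left]

theorem mem_NI (hq : q ∈ C.B 4 a ×ˢ C.B 4 b) :
    (C.pt γ a q.1, C.pt γ' b q.2) ∈ NI C G s ↔ ¬ LI volume (ch2 C G γ γ' a b) s q :=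
  ⟨fun ⟨_, _, _, _, _, hq', e, h⟩ h' =>
    h (li_chart hq hq' (congrArg Prod.fst e) (congrArg Prod.snd e) h'),
    fun h => ⟨γ, γ', a, b, q, hq, rfl, h⟩⟩

theorem NI_closed : IsClosed (NI C G s) := by
  refine isOpen_compl_iff.1 (isOpen_iff_mem_nhds.2 fun p hp => ?_)
  obtain ⟨γ, a, z, hz, e⟩ := C.exists_pt p.1
  obtain ⟨γ', b, z', hz', e'⟩ := C.exists_pt p.2
  have hq : (z, z') ∈ C.B 4 a ×ˢ C.B 4 b := ⟨C.B14 hz, C.B14 hz'⟩
  obtain rfl : p = (C.pt γ a z, C.pt γ' b z') := Prod.ext e e'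
  rw [← C.map_pt2 γ γ' a b hq, mem_map]
  filter_upwards [LF.ev (not_not.1 (mt (mem_NI hq).2 hp)),
    ((C.isOpen_B 4 a).prod (C.isOpen_B 4 b)).mem_nhds hq] with y h1 h2 h3
  exact (mem_NI h2).1 h3 h1

theorem NI_inv (hG : ∀ (g : Γ) x y, G (g • x) (g • y) = G x y) (g : Γ) (x y : E)
    (h : (x, y) ∈ NI C G s) : (g • x, g • y) ∈ NI C G s := by
  obtain ⟨γ, γ', a, b, q, hq, e, h⟩ := h
  obtain ⟨rfl, rfl⟩ := Prod.mk.inj e
  refine ⟨g * γ, g * γ', a, b, q, hq, by rw [C.smul_pt, C.smul_pt], ?_⟩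
  rwa [show ch2 C G (g * γ) (g * γ') a b = ch2 C G γ γ' a b from
    funext fun y => by rw [ch2, ← C.smul_pt, ← C.smul_pt, hG, ch2]]

theorem NI_symm (hG : ∀ x y, G x y = G y x) (x y : E) (h : (x, y) ∈ NI C G s) :
    (y, x) ∈ NI C G s := by
  obtain ⟨γ, γ', a, b, q, hq, e, h⟩ := h
  obtain ⟨rfl, rfl⟩ := Prod.mk.inj e
  refine ⟨γ', γ, b, a, q.swap, ⟨hq.2, hq.1⟩, rfl, fun h' => h ?_⟩
  refine LF.map (τ := Prod.swap) (σ := Prod.swap) (z := q.swap) (analyticAt_snd.prod analyticAt_fst)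
    (.of_forall fun _ => rfl) ((Homeomorph.prodComm _ _).map_nhds_eq _) ?_
  rwa [show ch2 C G γ' γ b a = fun y => ch2 C G γ γ' a b y.swap from funext fun y => hG _ _] at h'

theorem aff_mem (c : Cm n) {r : ℝ} (hr : 0 < r) (k : ℝ) (x : Cm n) :
    c + (r : ℂ) • x ∈ ball c (k * r) ↔ ‖x‖ < k := by
  rw [mem_ball_iff_norm, add_sub_cancel_left, norm_smul, Complex.norm_real, Real.norm_of_nonneg hr.le,
    mul_comm, mul_lt_mul_iff_left₀ hr]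

variable (C) in
/-- the scaling of a chart -/
def scl (a : C.I) : Cm n ≃L[ℂ] Cm n :=
  ContinuousLinearEquiv.smulLeft (Units.mk0 (C.r a : ℂ) (Complex.ofReal_ne_zero.2 (C.r_pos a).ne'))

theorem bomb₁ {P : Cm n → ℝ} (hP : LPsh P (C.B 4 a)) (hs : 0 < s) {z : Cm n} (hz : z ∈ C.B 3 a)
    (h : LI volume P s z) : ∃ F : Cm n → ℂ, AnalyticOnNhd ℂ F (C.B 3 a) ∧ F z ≠ 0 ∧
      ∀ y ∈ C.B 3 a, F y ≠ 0 → LI volume P s y :=
  bomb (C.c a) (scl C a) (aff_mem _ (C.r_pos a) 4) (aff_mem _ (C.r_pos a) 3) hP hs hz h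

theorem bomb₂ {P : Cm n × Cm n → ℝ} (hP : LPsh P (C.B 4 a ×ˢ C.B 4 b)) (hs : 0 < s)
    (hq : q ∈ C.B 3 a ×ˢ C.B 3 b) (h : LI volume P s q) :
    ∃ F : Cm n × Cm n → ℂ, AnalyticOnNhd ℂ F (C.B 3 a ×ˢ C.B 3 b) ∧ F q ≠ 0 ∧
      ∀ y ∈ C.B 3 a ×ˢ C.B 3 b, F y ≠ 0 → LI volume P s y := by
  let e : Cm (n + n) ≃L[ℂ] Cm n × Cm n := ((LinearEquiv.funCongrLeft ℂ ℂ finSumFinEquiv).trans
    (LinearEquiv.sumArrowLequivProdArrow _ _ ℂ ℂ)).toContinuousLinearEquiv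
  have he : ∀ k > (0 : ℝ), ∀ x, (C.c a, C.c b) + (e.trans ((scl C a).prodCongr (scl C b))) x ∈
      C.B k a ×ˢ C.B k b ↔ ‖x‖ < k := fun k hk x => by
    refine (and_congr (aff_mem _ (C.r_pos a) k (e x).1) (aff_mem _ (C.r_pos b) k (e x).2)).trans ?_
    rw [pi_norm_lt_iff hk, pi_norm_lt_iff hk, pi_norm_lt_iff hk,
      finSumFinEquiv.surjective.forall, Sum.forall]
    rfl
  exact bomb _ _ (he 4 (by norm_num)) (he 3 (by norm_num)) hP hs hq h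

variable (C) in
theorem exp_bd (A : ℝ) : ∃ β > (0 : ℝ), ∀ a b, ∀ q ∈ C.B 3 a ×ˢ C.B 3 b,
    Real.exp (A * C.ρ a q.1 + A * C.ρ b q.2) ≤ β ∧
      1 ≤ β * Real.exp (A * C.ρ a q.1 + A * C.ρ b q.2) := by
  choose M hM using fun a => (C.isCompact_cB 3 a).exists_bound_of_continuousOn
    (f := fun z => A * C.ρ a z) fun z hz =>
      (C.contAt_exp A a (C.cB_sub_B (by norm_num) a hz)).continuousWithinAt
  obtain ⟨B, hB⟩ := Finite.exists_le M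
  refine ⟨Real.exp (2 * B), Real.exp_pos _, fun a b q hq => ?_⟩
  have h1 := abs_le.1 ((hM a _ (C.B_sub_cB 3 a hq.1)).trans (hB a))
  have h2 := abs_le.1 ((hM b _ (C.B_sub_cB 3 b hq.2)).trans (hB b))
  rw [← Real.exp_add]
  exact ⟨Real.exp_le_exp.2 (by linarith), Real.one_le_exp (by linarith)⟩

variable {D : LD C} (L : Lim D)

theorem B34 (hq : q ∈ C.B 3 a ×ˢ C.B 3 b) : q ∈ C.B 4 a ×ˢ C.B 4 b :=
  ⟨C.B_mono (by norm_num) a hq.1, C.B_mono (by norm_num) b hq.2⟩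

theorem mem_W (l : ℕ) (hs : 0 < s) (hq : q ∈ C.B 4 a ×ˢ C.B 4 b) :
    (C.pt 1 a q.1, C.pt γ b q.2) ∈ NI C (L.W l) s ↔ ¬ LI volume (fun q : Cm n × Cm n =>
      L.W l (C.pt 1 a q.1) (C.pt γ b q.2) * Real.exp (D.A * C.ρ a q.1 + D.A * C.ρ b q.2)) s q :=
  (mem_NI hq).trans (not_congr (li_mul_exp hs.le
    (((C.contAt_exp D.A a hq.1).comp continuousAt_fst).add
      ((C.contAt_exp D.A b hq.2).comp continuousAt_snd)) fun _ => L.W_nonneg l _ _).symm)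

theorem W_le_one (l : ℕ) (x y : E) : L.W l x y ≤ 1 :=
  (L.W_le l x y).trans (mul_le_one₀ (L.F_le x) (L.F_nonneg y) (L.F_le y))

theorem W_bound : ∃ c > (0 : ℝ), ∀ (l : ℕ) (s t : ℝ), 0 < s → 0 < t → t ≤ c / s → ∃ K : ℝ,
    ∀ γ a b, ∀ q ∈ C.B 2 a ×ˢ C.B 2 b, (C.pt 1 a q.1, C.pt γ b q.2) ∈ NI C (L.W l) s →
      ∀ y ∈ C.B 3 a ×ˢ C.B 3 b, L.W l (C.pt 1 a y.1) (C.pt γ b y.2) ≤ K * ‖y - q‖ ^ t := by
  obtain ⟨c, hc, H⟩ := li_decay (volume : Measure (Cm n × Cm n))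
  obtain ⟨β, hβ, h1⟩ := exp_bd C D.A
  obtain ⟨r, hr, h2⟩ := C.exists_r
  refine ⟨c, hc, fun l s t hs ht hts => ⟨β * β * (10 / (r / 2)) ^ t, fun γ a b q hq h y hy => ?_⟩⟩
  have h3 : closedBall q (r / 2) ⊆ C.B 3 a ×ˢ C.B 3 b := by
    rw [← closedBall_prod_same]
    exact prod_mono (C.closedBall_sub (C.B_sub_cB 2 a hq.1) (by linarith [h2 a]))
      (C.closedBall_sub (C.B_sub_cB 2 b hq.2) (by linarith [h2 b]))
  have h0 : 0 ≤ 10 * ‖y - q‖ / (r / 2) := by positivity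
  have h4 := h1 a b y hy
  rw [mul_assoc, ← Real.mul_rpow (by positivity) (norm_nonneg _), div_mul_eq_mul_div]
  rcases le_total (10 * ‖y - q‖ / (r / 2)) 1 with h5 | h5
  · have h6 := H _ _ q (r / 2) β s ((C.isOpen_B 4 a).prod (C.isOpen_B 4 b)) (L.W_psh l γ a b)
      (fun x hx => B34 (h3 hx)) (half_pos hr) hβ hs (fun x hx => (mul_le_of_le_one_left
        (Real.exp_pos _).le (W_le_one L l _ _)).trans (h1 a b x (h3 hx)).1)
      ((mem_W L l hs (B34 (h3 (mem_closedBall_self (half_pos hr).le)))).1 h) y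
      (mem_closedBall_iff_norm.2 (by
        linarith [(div_le_one (half_pos hr)).1 h5, norm_nonneg (y - q)]))
    have h7 := mul_le_mul_of_nonneg_left
      (h6.trans (mul_le_mul_of_nonneg_left (Real.rpow_le_rpow_of_exponent_ge' h0 h5 ht.le hts)
        hβ.le)) hβ.le
    rw [mul_left_comm, ← mul_assoc β] at h7
    exact (le_mul_of_one_le_right (L.W_nonneg l _ _) h4.2).trans h7
  · exact (W_le_one L l _ _).trans (one_le_mul_of_one_le_of_one_le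
      (h4.2.trans (mul_le_mul_of_nonneg_left h4.1 hβ.le)) (Real.one_le_rpow h5 ht.le))

theorem F_lelong {ν : ℝ} (hν : 0 < ν) (a : C.I) : ∃ h : Cm n → ℂ, AnalyticOnNhd ℂ h (C.B 3 a) ∧
    (∃ z ∈ C.B 3 a, h z ≠ 0) ∧ ∀ z ∈ C.B 3 a, h z ≠ 0 → C.Small L.F ν (C.pt 1 a z) := by
  have hB : C.B 3 a ⊆ C.B 4 a := C.B_mono (by norm_num) a
  have hs : 0 < (2 * n + 1) / ν := by positivity
  obtain ⟨z, hz, h0⟩ : ∃ z ∈ C.B 3 a, 0 < L.F (C.pt 1 a z) := by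
    by_contra H
    push Not at H
    refine ((C.isOpen_B 3 a).measure_pos volume ⟨_, C.c_mem (by norm_num) a⟩).ne'
      (measure_mono_null ?_ (ae_iff.1 (L.F_ae a)))
    exact fun z hz h => (H z hz).not_gt (h (hB hz)).1
  obtain ⟨h, h1, h2, h3⟩ := bomb₁ (L.F_psh a) hs hz (li_of_pos (C.isOpen_B 4 a) (L.F_psh a) (hB hz)
    (mul_pos h0 (Real.exp_pos _)) hs)
  refine ⟨h, h1, ⟨z, hz, h2⟩, fun y hy h4 => C.small_of_chart (hB hy) ((((li_mul_exp hs.le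
    (C.contAt_exp D.A a (hB hy)) fun _ => L.F_nonneg _).1 (h3 y hy h4)).small hs).mono ?_)⟩
  rw [div_div_eq_mul_div, div_le_iff₀ (by positivity), Module.finrank_fin_fun]
  push_cast
  nlinarith

end Z

open Z in
theorem stZ : StZ := by
  intro n Γ E _ _ _ _ _ _ C D L
  obtain ⟨c, hc, H⟩ := W_bound L
  have hs : ∀ l, 0 < (8 * n + 1) / D.c (l + 1) := fun l => div_pos (by positivity) (D.c_pos _)
  have hm : 0 < min 1 (c / (8 * n + 1)) := by positivity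
  refine ⟨⟨fun l => NI C (L.W l) ((8 * n + 1) / D.c (l + 1)),
    fun l => min 1 (c / (8 * n + 1)) * D.c (l + 1), fun l => mul_pos hm (D.c_pos _),
    fun l l' h => mul_le_mul_of_nonneg_left (D.c_anti (Nat.succ_le_succ h)) hm.le,
    fun l => mul_le_of_le_one_left (D.c_pos _).le (min_le_left _ _), fun l => NI_closed,
    fun l => NI_inv (L.W_inv l), fun l => NI_symm (L.W_symm l), fun l γ a b => ?_,
    fun l γ a b q hq ⟨K, hK⟩ => (mem_NI hq).2 fun h => h.not_le (hs l) ?_ hK,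
    fun l => H l _ _ (hs l) (mul_pos hm (D.c_pos _)) ?_, fun ν hν => F_lelong L hν⟩⟩
  · refine ⟨{f | AnalyticOnNhd ℂ f (C.B 3 a ×ˢ C.B 3 b) ∧ ∀ q ∈ C.B 3 a ×ˢ C.B 3 b, f q ≠ 0 →
      (C.pt 1 a q.1, C.pt γ b q.2) ∉ NI C (L.W l) ((8 * n + 1) / D.c (l + 1))}, fun f hf => hf.1,
      fun q hq => ⟨fun h f hf => not_not.1 fun h0 => hf.2 q hq h0 h, fun h => ?_⟩⟩
    refine (mem_W L l (hs l) (B34 hq)).2 fun h' => ?_
    obtain ⟨f, h1, h2, h3⟩ := bomb₂ (L.W_psh l γ a b) (hs l) hq h'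
    exact h2 (h f ⟨h1, fun y hy h4 h5 => (mem_W L l (hs l) (B34 hy)).1 h5 (h3 y hy h4)⟩)
  · rw [Module.finrank_prod, Module.finrank_fin_fun, ← mul_div_assoc,
      div_mul_cancel₀ _ (D.c_pos _).ne']
    push_cast
    linarith
  · rw [div_div_eq_mul_div, mul_div_right_comm]
    exact mul_le_mul_of_nonneg_right (min_le_right _ _) (D.c_pos _).le

end Vale.Agent.P284Z
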