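import Vale.Agent.P284Z.Z.Mean
import Vale.Agent.P284Z.S.Three

/-!
# P284Z, block Z: the uniform integrability theorem of Skoda (covering argument of John and Nirenberg)
-/

set_option linter.all false

open scoped Topology ENNReal
open Filter Set Metric MeasureTheory

noncomputable section

namespace Vale.Agent.P284Z.Z

variable {W : Type} [NormedAddCommGroup W] [NormedSpace ℂ W] {u : W → ℝ} {U : Set W} {a x : W}
  {R r t : ℝ}

theorem one_le_log_three : 1 ≤ Real.log 3 := by
  rw [Real.le_log_iff_exp_le (by norm_num)]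
  linarith [Real.exp_one_lt_d9]

theorem exp_neg_three : Real.exp (-3) ≤ 1 / 16 := by
  rw [Real.exp_neg, one_div]
  refine inv_anti₀ (by norm_num) ?_
  have h := Real.exp_one_gt_d9
  have e : Real.exp 3 = Real.exp 1 ^ 3 := by rw [← Real.exp_nat_mul]; norm_num
  rw [e]
  exact le_trans (by norm_num) (pow_le_pow_left₀ (by norm_num) h.le 3)

theorem log_nine : Real.log 9 ≤ 3 := by
  rw [Real.log_le_iff_le_exp (by norm_num)]
  have h := exp_neg_three
  rw [Real.exp_neg, one_div, inv_le_inv₀ (Real.exp_pos _) (by norm_num)] at h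
  linarith

theorem doubling (h : BP u U) (hB : closedBall a R ⊆ U) (h0 : ∀ y ∈ closedBall a R, u y ≤ 0)
    (h1 : -1 ≤ u a) (hx : x ∈ closedBall a (R / 4)) (hr : 0 < r) (hrR : r ≤ R / 4) (ht : 3 ≤ t)
    (h2 : ∀ y ∈ closedBall x r, u y ≤ -t) : r ≤ R * Real.exp (-t) ∧
      closedBall x (9 * r) ⊆ closedBall a R ∧ ∀ y ∈ closedBall x (9 * r), u y ≤ -t + 3 := by
  obtain ⟨b, hb⟩ := h.bdd
  have hx' : dist x a ≤ R / 4 := hx
  have hS : closedBall x (3 * R / 4) ⊆ closedBall a R := closedBall_subset_closedBall' (by linarith)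
  have hR : 0 < 3 * R / 4 := by linarith
  set L := Real.log (3 * R / 4) - Real.log r with hL
  have h3 : ∀ ρ, 0 < ρ → ρ ≤ R / 4 → 1 ≤ Real.log (3 * R / 4) - Real.log ρ := fun ρ hρ hρ' => by
    rw [← Real.log_div hR.ne' hρ.ne']
    exact one_le_log_three.trans (Real.log_le_log (by norm_num)
      ((le_div_iff₀ hρ).2 (by linarith)))
  have hL1 : 1 ≤ L := h3 r hr hrR
  have e : t / L * L = t := div_mul_cancel₀ t (by linarith)
  have hs0 : 0 ≤ t / L := div_nonneg (by linarith) (by linarith)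
  have key : ∀ z, r ≤ ‖z - x‖ → ‖z - x‖ ≤ 3 * R / 4 →
      u z ≤ -t - t / L * Real.log r + t / L * Real.log ‖z - x‖ := fun z hz hz' =>
    S.three_psh (T := -b) h.psh hr (hS.trans hB) (fun y hy => by simpa using hb y (hB (hS hy)))
      (fun y hy => by simpa using h2 y (mem_closedBall_iff_norm.2 hy.le))
      (fun y hy => by nlinarith [h0 y (hS (mem_closedBall_iff_norm.2 hy.le))]) hz hz'
  have hax : ‖a - x‖ ≤ R / 4 := by rwa [← dist_eq_norm, dist_comm]
  have har : r ≤ ‖a - x‖ := not_lt.1 fun hn => by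
    linarith [h2 a (mem_closedBall_iff_norm.2 hn.le)]
  have hs1 : t / L ≤ 1 := by
    nlinarith [key a har (by linarith), h3 _ (hr.trans_le har) hax]
  have h4 : r ≤ 3 * R / 4 * Real.exp (-t) := by
    rw [← Real.log_le_log_iff hr (by positivity), Real.log_mul hR.ne' (Real.exp_ne_zero _),
      Real.log_exp]
    nlinarith
  have h5 : Real.exp (-t) ≤ 1 / 16 := (Real.exp_le_exp.2 (by linarith)).trans exp_neg_three
  have h6 : 9 * r ≤ 3 * R / 4 := by nlinarith
  refine ⟨by nlinarith [Real.exp_pos (-t)], (closedBall_subset_closedBall h6).trans hS,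
    fun y hy => ?_⟩
  rw [mem_closedBall_iff_norm] at hy
  rcases le_total ‖y - x‖ r with hy' | hy'
  · linarith [h2 y (mem_closedBall_iff_norm.2 hy')]
  · have h7 : Real.log ‖y - x‖ ≤ Real.log 9 + Real.log r := by
      rw [← Real.log_mul (by norm_num) hr.ne']
      exact Real.log_le_log (hr.trans_le hy') hy
    have h8 : Real.log r ≤ Real.log ‖y - x‖ := Real.log_le_log hr hy'
    nlinarith [key y hy' (hy.trans h6), log_nine]

theorem exists_rad (h : BP u U) (hB : closedBall a R ⊆ U) (h1 : -1 ≤ u a) (hR : 0 < R)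
    (hx : x ∈ closedBall a (R / 4)) (ht : 3 ≤ t) (h2 : u x < -t) : ∃ r, 0 < r ∧ r ≤ R / 4 ∧
      (∀ y ∈ closedBall x r, u y ≤ -t) ∧ ∃ x' ∈ closedBall x (2 * r), -t < u x' := by
  let A := {r : ℝ | 0 < r ∧ ∀ y ∈ closedBall x r, u y ≤ -t}
  have hA : ∀ r ∈ A, r ≤ R / 4 := fun r hr => not_lt.1 fun hn => by
    linarith [hr.2 a (mem_closedBall'.2 ((mem_closedBall.1 hx).trans hn.le))]
  obtain ⟨ε, hε, h3⟩ := nhds_basis_closedBall.eventually_iff.1
    (usc_ev h.opn h.psh.1 (hB (closedBall_subset_closedBall (by linarith) hx)) h2)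
  have hε' : ε ∈ A := ⟨hε, fun y hy => (h3 hy).2.le⟩
  have h4 : ε ≤ sSup A := le_csSup ⟨_, hA⟩ hε'
  obtain ⟨r, hr, h5⟩ := exists_lt_of_lt_csSup ⟨ε, hε'⟩ (show sSup A / 2 < sSup A by linarith)
  refine ⟨r, hr.1, hA r hr, hr.2, by_contra fun hn => ?_⟩
  push Not at hn
  linarith [le_csSup ⟨_, hA⟩ (show 2 * r ∈ A from ⟨by linarith [hr.1], hn⟩)]

variable [FiniteDimensional ℂ W] [MeasurableSpace W] [BorelSpace W] {μ : Measure W}
  [μ.IsAddHaarMeasure]

theorem step (h : BP u U) (hB : closedBall a R ⊆ U) (h0 : ∀ y ∈ closedBall a R, u y ≤ 0)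
    (h1 : -1 ≤ u a) (hR : 0 < R) {ρ : ℝ} (hρ : ρ ≤ R / 4) (ht : 3 ≤ t) :
    μ {y ∈ closedBall a ρ | u y ≤ -(t + 6 * 7 ^ Module.finrank ℝ W)} ≤
      2⁻¹ * μ {y ∈ closedBall a (ρ + R * Real.exp (-t)) | u y ≤ -t} := by
  haveI : ProperSpace W := proper
  set s : ℝ := 7 ^ Module.finrank ℝ W with hs
  have hs0 : 0 < s := by positivity
  set E := {y ∈ closedBall a ρ | u y ≤ -(t + 6 * s)} with hE
  have hx : ∀ x ∈ E, x ∈ closedBall a (R / 4) := fun x hx => closedBall_subset_closedBall hρ hx.1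
  choose! r r0 r1 r2 x' r3 r4 using fun x (hxE : x ∈ E) =>
    exists_rad h hB h1 hR (hx x hxE) ht (by linarith [hxE.2])
  obtain ⟨T, hT, hd, hc⟩ := Vitali.exists_disjoint_subfamily_covering_enlargement_closedBall
    E (fun x => x) r (R / 4) r1 5 (by norm_num)
  have hcnt : T.Countable := hd.countable_of_nonempty_interior fun x hxT =>
    ⟨x, ball_subset_interior_closedBall (mem_ball_self (r0 x (hT hxT)))⟩
  have key : ∀ x ∈ T, μ (E ∩ closedBall x (5 * r x)) ≤ 2⁻¹ * μ (closedBall x (r x)) := by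
    intro x hxT
    have hxE := hT hxT
    obtain ⟨-, d1, d2⟩ := doubling h hB h0 h1 (hx x hxE) (r0 x hxE) (r1 x hxE) ht (r2 x hxE)
    have d3 : dist (x' x) x ≤ 2 * r x := r3 x hxE
    have d4 : closedBall (x' x) (7 * r x) ⊆ closedBall x (9 * r x) :=
      closedBall_subset_closedBall' (by linarith)
    have d5 := h.cheb (μ := μ) (s := 6 * s) ((d4.trans d1).trans hB) fun y hy => d2 y (d4 hy)
    have d6 : μ.real (closedBall (x' x) (7 * r x)) = s * μ.real (closedBall x (r x)) := by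
      rw [measureReal_def, measureReal_def, μ.addHaar_closedBall_mul _ (by norm_num) (r0 x hxE).le,
        μ.addHaar_closedBall_center x, ENNReal.toReal_mul, ENNReal.toReal_ofReal hs0.le]
    have d7 : μ.real (E ∩ closedBall x (5 * r x)) ≤
        μ.real {y ∈ closedBall (x' x) (7 * r x) | u y ≤ -t + 3 - 6 * s} :=
      measureReal_mono (fun y hy => ⟨closedBall_subset_closedBall'
        (by rw [dist_comm]; linarith) hy.2, by linarith [hy.1.2]⟩)
        ((measure_mono (sep_subset _ _)).trans_lt measure_closedBall_lt_top).ne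
    rw [← ENNReal.toReal_le_toReal
      ((measure_mono inter_subset_right).trans_lt measure_closedBall_lt_top).ne
      (ENNReal.mul_ne_top (by simp) measure_closedBall_lt_top.ne), ENNReal.toReal_mul,
      ← measureReal_def, ← measureReal_def, ENNReal.toReal_inv, ENNReal.toReal_ofNat]
    have d8 := measureReal_nonneg (μ := μ) (s := closedBall x (r x))
    have d9 : (-t + 3 - u (x' x)) * (s * μ.real (closedBall x (r x))) ≤
        3 * (s * μ.real (closedBall x (r x))) :=
      mul_le_mul_of_nonneg_right (by linarith [r4 x hxE]) (by positivity)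
    rw [d6] at d5
    refine le_of_mul_le_mul_left ?_ (show 0 < 6 * s by positivity)
    nlinarith
  have sub : ∀ x ∈ T, closedBall x (r x) ⊆
      {y ∈ closedBall a (ρ + R * Real.exp (-t)) | u y ≤ -t} := fun x hxT y hy => by
    have hxE := hT hxT
    have d1 := (doubling h hB h0 h1 (hx x hxE) (r0 x hxE) (r1 x hxE) ht (r2 x hxE)).1
    have d2 : dist x a ≤ ρ := hxE.1
    exact ⟨closedBall_subset_closedBall' (by linarith) hy, r2 x hxE y hy⟩
  calc μ E ≤ μ (⋃ x ∈ T, E ∩ closedBall x (5 * r x)) := measure_mono fun x hxE => by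
        obtain ⟨b, hb, h2⟩ := hc x hxE
        exact mem_biUnion hb ⟨hxE, h2 (mem_closedBall_self (r0 x hxE).le)⟩
    _ ≤ ∑' x : T, μ (E ∩ closedBall x (5 * r x)) := measure_biUnion_le μ hcnt _
    _ ≤ ∑' x : T, 2⁻¹ * μ (closedBall x (r x)) := ENNReal.tsum_le_tsum fun x => key x x.2
    _ = 2⁻¹ * μ (⋃ x ∈ T, closedBall x (r x)) := by
        rw [ENNReal.tsum_mul_left, measure_biUnion hcnt hd fun _ _ => measurableSet_closedBall]
    _ ≤ _ := mul_le_mul_right (measure_mono (iUnion₂_subset sub)) _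

theorem decay (h : BP u U) (hB : closedBall a R ⊆ U) (h0 : ∀ y ∈ closedBall a R, u y ≤ 0)
    (h1 : -1 ≤ u a) (hR : 0 < R) (k : ℕ) :
    μ {y ∈ closedBall a (R / 8 + 2 * R * Real.exp (-(3 + k * (6 * 7 ^ Module.finrank ℝ W)))) |
      u y ≤ -(3 + k * (6 * 7 ^ Module.finrank ℝ W))} ≤ 2⁻¹ ^ k * μ (closedBall a R) := by
  set s : ℝ := 6 * 7 ^ Module.finrank ℝ W with hs
  have hs0 : 3 ≤ s := by
    have : (1 : ℝ) ≤ 7 ^ Module.finrank ℝ W := one_le_pow₀ (by norm_num)
    linarith
  have h3 : ∀ k : ℕ, (3 : ℝ) ≤ 3 + k * s := fun k => le_add_of_nonneg_right (by positivity)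
  have h4 : ∀ k : ℕ, R / 8 + 2 * R * Real.exp (-(3 + k * s)) ≤ R / 4 := fun k => by
    nlinarith [(Real.exp_le_exp.2 (neg_le_neg (h3 k))).trans exp_neg_three]
  induction k with
  | zero =>
    rw [pow_zero, one_mul]
    exact measure_mono fun y hy => closedBall_subset_closedBall (by linarith [h4 0]) hy.1
  | succ k ih =>
    have e : 3 + ((k + 1 : ℕ) : ℝ) * s = 3 + k * s + s := by push_cast; ring
    have h5 := step (μ := μ) h hB h0 h1 hR (h4 (k + 1)) (h3 k)
    rw [← hs, ← e] at h5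
    rw [pow_succ', mul_assoc 2⁻¹]
    refine h5.trans (mul_le_mul_right (le_trans (measure_mono fun y hy =>
      And.intro (closedBall_subset_closedBall ?_ hy.1) hy.2) ih) _)
    rw [e, neg_add _ s, Real.exp_add]
    nlinarith [mul_pos hR (Real.exp_pos (-(3 + k * s))),
      (Real.exp_le_exp.2 (neg_le_neg hs0)).trans exp_neg_three]

variable (μ) in
theorem skoda_bp : ∃ c > (0 : ℝ), ∃ C < (⊤ : ℝ≥0∞), ∀ (u : W → ℝ) (U : Set W) (a : W) (R : ℝ),
    BP u U → closedBall a R ⊆ U → (∀ y ∈ closedBall a R, u y ≤ 0) → -1 ≤ u a → 0 < R →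
    ∫⁻ y in closedBall a (R / 8), ENNReal.ofReal (Real.exp (-(c * u y))) ∂μ ≤
      C * μ (closedBall a R) := by
  set s : ℝ := 6 * 7 ^ Module.finrank ℝ W with hs
  have hs0 : 0 < s := by positivity
  have hc : 0 < Real.log (3 / 2) / s := div_pos (Real.log_pos (by norm_num)) hs0
  set c := Real.log (3 / 2) / s with hc'
  have e1 : ∀ k : ℕ, ENNReal.ofReal (Real.exp (c * (3 + k * s))) =
      ENNReal.ofReal (Real.exp (c * 3)) * ENNReal.ofReal (3 / 2) ^ k := fun k => by
    rw [mul_add, Real.exp_add, mul_left_comm, Real.exp_nat_mul, hc', div_mul_cancel₀ _ hs0.ne',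
      Real.exp_log (by norm_num), ENNReal.ofReal_mul (Real.exp_pos _).le,
      ENNReal.ofReal_pow (by norm_num)]
  have e2 : ENNReal.ofReal (3 / 2) * 2⁻¹ < 1 := by
    rw [← ENNReal.ofReal_ofNat 2, ← ENNReal.ofReal_inv_of_pos (by norm_num),
      ← ENNReal.ofReal_mul (by norm_num), ENNReal.ofReal_lt_one]
    norm_num
  refine ⟨c, hc, ∑' k : ℕ, ENNReal.ofReal (Real.exp (c * 3)) * 2 *
    (ENNReal.ofReal (3 / 2) * 2⁻¹) ^ k, ?_, fun u U a R h hB h0 h1 hR => ?_⟩
  · rw [ENNReal.tsum_mul_left]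
    exact ENNReal.mul_lt_top (ENNReal.mul_lt_top ENNReal.ofReal_lt_top (by simp))
      (tsum_geometric_lt_top.2 e2)
  let F : ℕ → Set W := fun k => Nat.casesOn k (closedBall a R) fun k =>
    {y ∈ closedBall a (R / 8) | u y ≤ -(3 + k * s)}
  have hF : ∀ k, μ (F k) ≤ 2 * 2⁻¹ ^ k * μ (closedBall a R) := fun k => by
    cases k with
    | zero =>
      rw [pow_zero, mul_one, two_mul]
      exact le_self_add
    | succ k =>
      rw [pow_succ', ← mul_assoc, ENNReal.mul_inv_cancel (by simp) (by simp), one_mul]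
      exact le_trans (measure_mono fun y hy => And.intro (closedBall_subset_closedBall
        (le_add_of_nonneg_right (by positivity)) hy.1) hy.2) (decay h hB h0 h1 hR k)
  calc _ ≤ ∫⁻ y, ∑' k, (toMeasurable μ (F k)).indicator
          (fun _ => ENNReal.ofReal (Real.exp (c * (3 + k * s)))) y ∂μ := by
        rw [← lintegral_indicator measurableSet_closedBall]
        refine lintegral_mono (indicator_le fun y hy => ?_)
        have hex : ∃ k : ℕ, -(3 + k * s) < u y := by
          obtain ⟨k, hk⟩ := exists_nat_gt (-u y / s)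
          exact ⟨k, by linarith [(div_lt_iff₀ hs0).1 hk]⟩
        refine le_trans ?_ (ENNReal.le_tsum (Nat.find hex))
        rw [indicator_of_mem (subset_toMeasurable μ _ ?_)]
        · exact ENNReal.ofReal_le_ofReal (Real.exp_le_exp.2 (by nlinarith [Nat.find_spec hex]))
        · cases hk : Nat.find hex with
          | zero => exact closedBall_subset_closedBall (by linarith) hy
          | succ k => exact ⟨hy, not_lt.1 (Nat.find_min hex (hk ▸ k.lt_succ_self))⟩
    _ ≤ _ := by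
        rw [lintegral_tsum fun k => (measurable_const.indicator
          (measurableSet_toMeasurable μ _)).aemeasurable, ← ENNReal.tsum_mul_right]
        refine ENNReal.tsum_le_tsum fun k => ?_
        rw [lintegral_indicator_const (measurableSet_toMeasurable μ _), measure_toMeasurable, e1]
        exact (mul_le_mul_right (hF k) _).trans_eq (by rw [mul_pow]; ring)

omit [NormedAddCommGroup W] [NormedSpace ℂ W] [FiniteDimensional ℂ W] [BorelSpace W]
  [μ.IsAddHaarMeasure] in
theorem fatou {f : ℕ → W → ℝ≥0∞} {g : W → ℝ≥0∞} {A : ℝ≥0∞} (hf : ∀ m, AEMeasurable (f m) μ)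
    (hg : ∀ᵐ y ∂μ, Tendsto (fun m => f m y) atTop (𝓝 (g y)))
    (hA : ∀ᶠ m in atTop, ∫⁻ y, f m y ∂μ ≤ A) : ∫⁻ y, g y ∂μ ≤ A :=
  (lintegral_congr_ae (hg.mono fun _ hy => hy.liminf_eq.symm)).trans_le
    ((lintegral_liminf_le' hf).trans (liminf_le_of_frequently_le' hA.frequently))

theorem tendsto_max (x : ℝ) (hx : 0 ≤ x) :
    Tendsto (fun m : ℕ => max x (Real.exp (-m))) atTop (𝓝 x) := by
  have := (tendsto_const_nhds (x := x)).max
    (Real.tendsto_exp_neg_atTop_nhds_zero.comp tendsto_natCast_atTop_atTop)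
  rwa [max_eq_left hx] at this

variable (μ) in
/-- **(F4)** the uniform theorem of Skoda -/
theorem skoda : ∃ c > (0 : ℝ), ∃ C < (⊤ : ℝ≥0∞), ∀ (P : W → ℝ) (U : Set W) (a : W) (R M σ : ℝ),
    IsOpen U → LPsh P U → closedBall a R ⊆ U → 0 < R → 0 < M → 0 < σ →
    (∀ y ∈ closedBall a R, P y ≤ M) → M * Real.exp (-σ) ≤ P a →
    ∫⁻ y in closedBall a (R / 8), ENNReal.ofReal (P y / M) ^ (-(c / σ)) ∂μ ≤
      C * μ (closedBall a R) := by
  obtain ⟨c, hc, C, hC, h⟩ := skoda_bp μ
  refine ⟨c, hc, C, hC, fun P U a R M σ hU hP hB hR hM hσ h1 h2 => ?_⟩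
  have hB' : closedBall a (R / 8) ⊆ U := (closedBall_subset_closedBall (by linarith)).trans hB
  refine fatou (f := fun m y => ENNReal.ofReal (max (P y) (Real.exp (-m)) / M) ^ (-(c / σ)))
    (fun m => (((usc_aemeas hU (lpsh_usc hP) measurableSet_closedBall hB' μ).max
      aemeasurable_const).div_const M).ennreal_ofReal.pow_const _)
    ((ae_restrict_mem measurableSet_closedBall).mono fun y hy =>
      (ENNReal.continuous_rpow_const.tendsto _).comp ((ENNReal.continuous_ofReal.tendsto _).comp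
        ((tendsto_max _ (hP.1 y (hB' hy))).div_const M))) ?_
  filter_upwards [tendsto_natCast_atTop_atTop.eventually_ge_atTop (-Real.log M)] with m hm
  refine le_of_eq_of_le (lintegral_congr fun y => ?_)
    (h _ U a R (((hP.bp hU m).add (bp_const hU (-Real.log M))).mul (inv_pos.2 hσ)) hB
      (fun y hy => mul_nonpos_of_nonneg_of_nonpos (inv_pos.2 hσ).le ?_) ?_ hR)
  · have h0 : 0 < max (P y) (Real.exp (-m)) := lt_max_of_lt_right (Real.exp_pos _)
    rw [ENNReal.ofReal_rpow_of_pos (div_pos h0 hM), Real.rpow_def_of_pos (div_pos h0 hM),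
      Real.log_div h0.ne' hM.ne', lg]
    congr 2
    ring
  · linarith [lg_le_iff.2 ⟨(Real.exp_log hM).symm ▸ h1 y hy, neg_le.1 hm⟩]
  · have h3 : Real.log M - σ ≤ lg m (P a) := by
      rw [← Real.exp_le_exp, exp_lg, sub_eq_add_neg, Real.exp_add, Real.exp_log hM]
      exact h2.trans (le_max_left _ _)
    rw [le_inv_mul_iff₀ hσ]
    linarith

end Vale.Agent.P284Z.Z
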