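import Vale.Agent.P284Z.Z.Mean

/-!
# P284Z, block Z: decreasing smooth approximations
-/

set_option linter.all false

open scoped Topology ENNReal ContDiff
open Filter Set Metric MeasureTheory

noncomputable section

namespace Vale.Agent.P284Z.Z

open Vale.Agent.P272.K

variable {N : ℕ} {u P : Cm N → ℝ} {ε : ℝ}

theorem contDiff_sq : ContDiff ℝ 2 fun w : Cm N => ∑ i, ‖w i‖ ^ 2 :=
  ContDiff.sum fun i _ => (contDiff_apply ℝ ℂ i).norm_sq ℂ

theorem exists_ker (hε : 0 < ε) : ∃ k : Cm N → ℝ, ContDiff ℝ 2 k ∧ HasCompactSupport k ∧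
    (∀ w, 0 ≤ k w) ∧ (∀ w, ε < ‖w‖ → k w = 0) ∧ (∀ a : ℂ, ‖a‖ = 1 → ∀ w, k (a • w) = k w) ∧
    ∫ w, k w = 1 := by
  let k : Cm N → ℝ := fun w => expNegInvGlue (ε ^ 2 - ∑ i, ‖w i‖ ^ 2)
  have h1 : ContDiff ℝ 2 k := expNegInvGlue.contDiff.comp (contDiff_const.sub contDiff_sq)
  have h2 : ∀ w, ε < ‖w‖ → k w = 0 := fun w hw => by
    obtain ⟨i, hi⟩ : ∃ i, ε < ‖w i‖ := by
      by_contra H
      push Not at H
      exact hw.not_ge ((pi_norm_le_iff_of_nonneg hε.le).2 H)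
    refine expNegInvGlue.zero_of_nonpos (sub_nonpos.2 (le_trans ?_
      (Finset.single_le_sum (f := fun i => ‖w i‖ ^ 2) (fun _ _ => sq_nonneg _) (Finset.mem_univ i))))
    exact pow_le_pow_left₀ hε.le hi.le 2
  have h3 : HasCompactSupport k := .intro (isCompact_closedBall 0 ε) fun w hw =>
    h2 w (by simpa using hw)
  have h4 : 0 < ∫ w, k w := h1.continuous.integral_pos_of_hasCompactSupport_nonneg_nonzero h3
    (fun w => expNegInvGlue.nonneg _) (x := 0) (expNegInvGlue.pos_of_pos (by simpa using pow_pos hε 2)).ne'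
  refine ⟨fun w => (∫ w, k w)⁻¹ * k w, contDiff_const.mul h1, h3.mul_left,
    fun w => mul_nonneg (inv_pos.2 h4).le (expNegInvGlue.nonneg _),
    fun w hw => mul_eq_zero_of_right _ (h2 w hw), fun a ha w => ?_, ?_⟩
  · simp only [k, Pi.smul_apply, norm_smul, ha, one_mul]
  · rw [integral_const_mul, inv_mul_cancel₀ h4.ne']

theorem moll (h : BP u (ball 0 4)) (hε : 0 < ε) (hε' : ε ≤ 1 / 4) : ∃ ψ : Cm N → ℝ,
    ContDiff ℝ 2 ψ ∧ Psh ψ (ball 0 3) ∧ ∀ z ∈ closedBall (0 : Cm N) (13 / 4), u z ≤ ψ z ∧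
      ∀ t, (∀ y ∈ closedBall z ε, u y ≤ t) → ψ z ≤ t := by
  obtain ⟨k, h1, h2, h3, h4, h5, h6⟩ := exists_ker (N := N) hε
  have hK : closedBall (0 : Cm N) (7 / 2) ⊆ ball 0 4 := closedBall_subset_ball (by norm_num)
  obtain ⟨v, B, hv, hB, e, -⟩ := h.cut (isCompact_closedBall 0 (7 / 2)) hK
  have hk : Integrable k := h1.continuous.integrable_of_hasCompactSupport h2
  have hi : ∀ z, Integrable fun w => k w * v (z + w) := fun z =>
    hk.mul_bdd (hv.comp (measurable_const_add z)).aestronglyMeasurable (.of_forall fun w => hB _)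
  have hm : ∀ z w : Cm N, ‖z‖ ≤ 13 / 4 → k w ≠ 0 → z + w ∈ closedBall (0 : Cm N) (7 / 2) :=
    fun z w hz hw => mem_closedBall_zero_iff.2 ((norm_add_le _ _).trans
      (by linarith [not_lt.1 (mt (h4 w) hw)]))
  have hc : ContDiff ℝ 2 fun z => ∫ w, k w * v (z + w) := by
    have := h2.contDiff_convolution_left (ContinuousLinearMap.lsmul ℝ ℝ) (μ := volume) h1
      (g := v) fun x => ⟨ball x 1, ball_mem_nhds x one_pos, Measure.integrableOn_of_bounded
        measure_ball_lt_top.ne hv.aestronglyMeasurable (.of_forall fun w => hB w)⟩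
    refine (congrArg (ContDiff ℝ 2) (funext fun z => ?_)).mp this
    rw [← rot volume (a := -1) (by simp) fun w => k w * v (z + w)]
    simp only [h5 (-1) (by simp)]
    simp only [neg_one_smul ℂ, ← sub_eq_add_neg]
    rfl
  refine ⟨_, hc, ⟨hc.continuous.upperSemicontinuous.upperSemicontinuousOn _, fun z w hw => ?_⟩,
    fun z hz => ⟨?_, fun t ht => ?_⟩⟩
  · obtain ⟨e1, e2⟩ := swap (μ := volume) hv hB hk (q := fun p : ℂ × Cm N => z + p.1 • w + p.2)
      (by fun_prop)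
    refine le_of_le_of_eq (integral_mono (hi z) e2 fun t => ?_) e1.symm
    by_cases ht : k t = 0
    · simp [ht]
    have h7 : ∀ ζ : ℂ, ‖ζ‖ ≤ 1 → z + t + ζ • w ∈ closedBall (0 : Cm N) (7 / 2) := fun ζ hζ => by
      rw [add_right_comm]
      exact hm _ _ (by linarith [mem_ball_zero_iff.1 (hw ζ hζ)]) ht
    refine mul_le_mul_of_nonneg_left ?_ (h3 t)
    rw [e _ (by simpa using h7 0 (by simp))]
    refine (h.psh.2 _ w fun ζ hζ => hK (h7 ζ hζ)).trans_eq
      (Real.circleAverage_congr_sphere fun ζ hζ => ?_)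
    rw [add_right_comm z (ζ • w)]
    exact (e _ (h7 ζ (by simpa using (mem_sphere_zero_iff_norm.1 hζ).le))).symm
  · have := h.kernel (μ := volume) (z := z) (r := ε) ((closedBall_subset_closedBall' (by
      linarith [mem_closedBall.1 hz])).trans hK) hk h3 h4 h5
    rw [h6, mul_one] at this
    refine this.trans_eq (integral_congr_ae (.of_forall fun w => ?_))
    by_cases hw : k w = 0
    · simp [hw]
    · exact congrArg (k w * ·) (e _ (hm z w (mem_closedBall_zero_iff.1 hz) hw)).symm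
  · rw [← one_mul t, ← h6, ← integral_mul_const]
    refine integral_mono (hi z) (hk.mul_const t) fun w => ?_
    by_cases hw : k w = 0
    · simp [hw]
    · refine mul_le_mul_of_nonneg_left ?_ (h3 w)
      rw [e _ (hm z w (mem_closedBall_zero_iff.1 hz) hw)]
      exact ht _ (by simpa using not_lt.1 (mt (h4 w) hw))

/-- the approximation of level `m` -/
def Good (P : Cm N → ℝ) (m : ℕ) (ε : ℝ) (ψ : Cm N → ℝ) : Prop :=
  ContDiff ℝ 2 ψ ∧ Psh ψ (ball 0 3) ∧ ∀ z ∈ closedBall (0 : Cm N) (13 / 4),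
    lg m (P z) + 1 / (m + 1) ≤ ψ z ∧
      ∀ t, (∀ y ∈ closedBall z ε, lg m (P y) ≤ t) → ψ z ≤ t + 1 / (m + 1)

theorem good (hP : LPsh P (ball 0 4)) (m : ℕ) (hε : 0 < ε) :
    ∃ ψ, Good P m ε ψ ∧ Good P m (1 / (m + 1)) ψ := by
  obtain ⟨ψ, h1, h2, h3⟩ := moll (hP.bp isOpen_ball m) (ε := min (min ε (1 / (m + 1))) (1 / 4))
    (by positivity) (min_le_right _ _)
  have h4 : Psh (fun z => ψ z + 1 / (m + 1)) (ball 0 3) := by
    obtain ⟨b, hb⟩ := (hP.bp isOpen_ball m).bdd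
    exact (BP.add ⟨isOpen_ball, h2, b, fun z hz => (hb z (ball_subset_ball (by norm_num) hz)).trans
      (h3 z (ball_subset_closedBall (ball_subset_ball (by norm_num) hz))).1⟩
      (bp_const isOpen_ball _)).psh
  have H : ∀ δ, min ε (1 / (m + 1)) ≤ δ → Good P m δ fun z => ψ z + 1 / (m + 1) := fun δ hδ =>
    ⟨h1.add contDiff_const, h4, fun z hz => ⟨add_le_add_left (h3 z hz).1 _, fun t ht =>
      add_le_add_left ((h3 z hz).2 t fun y hy => ht y (closedBall_subset_closedBall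
        ((min_le_left _ _).trans hδ) hy)) _⟩⟩
  exact ⟨_, H _ (min_le_left _ _), H _ (min_le_right _ _)⟩

theorem good_step (hP : LPsh P (ball 0 4)) (m : ℕ) (ψ : Cm N → ℝ) (h : Good P m (1 / (m + 1)) ψ) :
    ∃ ψ', Good P (m + 1 : ℕ) (1 / ((m + 1 : ℕ) + 1)) ψ' ∧ ∀ z ∈ ball (0 : Cm N) 3, ψ' z ≤ ψ z := by
  have hη : (0 : ℝ) < 1 / (m + 1) - 1 / ((m + 1 : ℕ) + 1) :=
    sub_pos.2 (one_div_lt_one_div_of_lt (by positivity) (by push_cast; linarith))
  obtain ⟨δ, hδ, H⟩ := Metric.uniformContinuousOn_iff.1 ((isCompact_closedBall (0 : Cm N)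
    (13 / 4)).uniformContinuousOn_of_continuous h.1.continuous.continuousOn) _ hη
  obtain ⟨ψ', h1, h2⟩ := good hP (m + 1) (ε := min (δ / 2) (1 / 4)) (by positivity)
  refine ⟨ψ', h2, fun z hz => ?_⟩
  have hz' : z ∈ closedBall (0 : Cm N) (13 / 4) :=
    ball_subset_closedBall (ball_subset_ball (by norm_num) hz)
  refine ((h1.2.2 z hz').2 (ψ z - 1 / ((m + 1 : ℕ) + 1)) fun y hy => ?_).trans_eq
    (sub_add_cancel _ _)
  have hy' : y ∈ closedBall (0 : Cm N) (13 / 4) := closedBall_subset_closedBall' (by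
    linarith [mem_ball.1 hz, min_le_right (δ / 2) (1 / 4)]) hy
  have h3 := (abs_lt.1 (H y hy' z hz' (by
    linarith [mem_closedBall.1 hy, min_le_left (δ / 2) (1 / 4)]))).2
  linarith [(h.2.2 y hy').1, lg_anti (T := m) (T' := (m + 1 : ℕ)) (by push_cast; linarith) (P y)]

/-- decreasing smooth approximations of `log P` -/
theorem reg (hP : LPsh P (ball 0 4)) : ∃ ψ : ℕ → Cm N → ℝ, (∀ m, ContDiff ℝ 2 (ψ m)) ∧
    (∀ m, Psh (ψ m) (ball 0 3)) ∧ (∀ m, ∀ z ∈ ball (0 : Cm N) 3, ψ (m + 1) z ≤ ψ m z) ∧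
    (∀ m : ℕ, ∀ z ∈ ball (0 : Cm N) 3, lg m (P z) ≤ ψ m z) ∧
    ∀ z ∈ ball (0 : Cm N) 3, Tendsto (fun m => Real.exp (ψ m z)) atTop (𝓝 (P z)) := by
  obtain ⟨ψ₀, h0, -⟩ := good hP 0 (ε := 1 / ((0 : ℕ) + 1)) (by positivity)
  choose f h1 h2 using good_step hP
  let s : ∀ m : ℕ, {ψ // Good P m (1 / (m + 1)) ψ} := fun m =>
    Nat.rec ⟨ψ₀, h0⟩ (fun m p => ⟨f m p.1 p.2, h1 m p.1 p.2⟩) m
  have hs : ∀ z ∈ ball (0 : Cm N) 3, z ∈ closedBall (0 : Cm N) (13 / 4) := fun z hz =>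
    ball_subset_closedBall (ball_subset_ball (by norm_num) hz)
  have h3 : ∀ m : ℕ, ∀ z ∈ ball (0 : Cm N) 3, lg m (P z) ≤ (s m).1 z := fun m z hz =>
    (le_add_of_nonneg_right (by positivity)).trans ((s m).2.2.2 z (hs z hz)).1
  refine ⟨fun m => (s m).1, fun m => (s m).2.1, fun m => (s m).2.2.1,
    fun m => h2 m (s m).1 (s m).2, h3, fun z hz => tendsto_order.2 ⟨fun t ht => .of_forall fun m =>
      ht.trans_le (le_trans ?_ (Real.exp_le_exp.2 (h3 m z hz))), fun t ht => ?_⟩⟩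
  · rw [exp_lg]
    exact le_max_left _ _
  · have hz' : z ∈ ball (0 : Cm N) 4 := ball_subset_ball (by norm_num) hz
    obtain ⟨t', h4, h5⟩ := exists_between ht
    have h6 : 0 < t' := (hP.1 z hz').trans_lt h4
    obtain ⟨δ, hδ, H⟩ := nhds_basis_closedBall.eventually_iff.1
      (usc_ev isOpen_ball (lpsh_usc hP) hz' h4)
    have h7 := tendsto_one_div_add_atTop_nhds_zero_nat (𝕜 := ℝ)
    filter_upwards [h7.eventually_le_const hδ,
      h7.eventually_lt_const (sub_pos.2 (Real.log_lt_log h6 h5)),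
      tendsto_natCast_atTop_atTop.eventually_ge_atTop (-Real.log t')] with m h8 h9 h10
    rw [← Real.lt_log_iff_exp_lt (h6.trans h5)]
    linarith [((s m).2.2.2 z (hs z hz)).2 (Real.log t') fun y hy => lg_le_iff.2
      ⟨(Real.exp_log h6).symm ▸ (H (closedBall_subset_closedBall h8 hy)).2.le, neg_le.1 h10⟩]

end Vale.Agent.P284Z.Z
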